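import Mathlib

/-!
# Locating the roots of a real polynomial by sign changes (support for P058)

TASK GT-3.  Prove `root_location` and `root_location_succ` (keep the statements EXACTLY; helper
lemmas with fresh names starting `gt3_` inside this file).

Setting: `m` intervals `(s j, r j)`, `j < m`, going down the real line
(`r (j + 1) ≤ s j < r j`), and a real polynomial `R` with `sign R (r j) = (-1) ^ j` and
`sign R (s j) = (-1) ^ (j + 1)`.

Common part (helper): for every `j < m` there is `ρ j` with `s j < ρ j < r j` and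
`R.eval (ρ j) = 0` (intermediate value theorem for the continuous function `fun x => R.eval x`
on `[s j, r j]`, e.g. `intermediate_value_Ioo` / `intermediate_value_Ioo'` applied to `R` or to
`-R` according to the parity of `j`; the values at the ends are nonzero, of opposite signs:
split on `Even j` / `Odd j`, `Even.neg_one_pow`, `Odd.neg_one_pow`).  Choose `ρ` (use
`Classical.choice` via `choose`; define `ρ j` arbitrarily for `j ≥ m`).  The `ρ j` are strictly
decreasing in `j < m` (`ρ (j + 1) < r (j + 1) ≤ s j < ρ j`), hence injective on `range m`, so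
`D := ∏ j ∈ range m, (X - C (ρ j))` divides `R` (pairwise coprime linear factors:
`Finset.prod_dvd_of_coprime` with `Polynomial.isCoprime_X_sub_C_of_isUnit_sub` or
`pairwise_coprime_X_sub_C`, and `dvd_iff_isRoot`), `D` is monic of degree `m`.

* `root_location`: `R = D * G`, `R ≠ 0` (as `R.eval x₀ > 0`), `natDegree R ≤ m = natDegree D`
  gives `natDegree G = 0`, `G = C c`; `R.eval x₀ = c * ∏ (x₀ - ρ j)` with all `x₀ - ρ j > 0`
  gives `c > 0`.
* `root_location_succ`: `R = D * G` with `natDegree G = 1` and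
  `leadingCoeff G = leadingCoeff R =: c` (as `D` is monic), so `G = C c * (X - C ρ')`
  (`ρ' = - G.coeff 0 / c`; `Polynomial.eq_X_add_C_of_natDegree_eq_one` or
  `Polynomial.eq_X_add_C_of_natDegree_le_one`); put `ρ m := ρ'`
  (`Finset.prod_range_succ`).  Location: `R.eval y = c * (y - ρ') * ∏_{j<m} (y - ρ j)` and every
  `y - ρ j < 0` (`y ≤ s j < ρ j`), so `(-1) ^ m * ∏_{j<m} (y - ρ j) > 0`
  (`Finset.prod_pos` after moving the signs inside, or induction); with
  `(-1) ^ m * R.eval y > 0` and `c > 0` this gives `y - ρ' > 0`.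
-/

namespace Vale.Agent.H80.GT

open Polynomial

theorem gt3_exists_root (R : ℝ[X]) (s r e : ℝ) (he : e ≠ 0) (hsr : s < r)
    (hr : 0 < e * R.eval r) (hs : e * R.eval s < 0) :
    ∃ ρ, s < ρ ∧ ρ < r ∧ R.eval ρ = 0 := by
  have hcont : ContinuousOn (fun x => e * R.eval x) (Set.Icc s r) :=
    (continuous_const.mul R.continuous).continuousOn
  have h0 : (0 : ℝ) ∈ Set.Ioo ((fun x => e * R.eval x) s) ((fun x => e * R.eval x) r) :=
    ⟨hs, hr⟩
  obtain ⟨x, hx, hx0⟩ := intermediate_value_Ioo hsr.le hcont h0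
  refine ⟨x, hx.1, hx.2, ?_⟩
  rcases mul_eq_zero.1 hx0 with h | h
  · exact absurd h he
  · exact h

theorem gt3_common (R : ℝ[X]) (m : ℕ) (s r : ℕ → ℝ)
    (hsr : ∀ j, j < m → s j < r j)
    (hord : ∀ j, j + 1 < m → r (j + 1) ≤ s j)
    (hr : ∀ j, j < m → 0 < (-1 : ℝ) ^ j * R.eval (r j))
    (hs : ∀ j, j < m → (-1 : ℝ) ^ j * R.eval (s j) < 0) :
    ∃ ρ : ℕ → ℝ, (∀ j, j < m → s j < ρ j ∧ ρ j < r j) ∧
      (∏ j ∈ Finset.range m, (X - C (ρ j))) ∣ R := by
  have hex : ∀ j, j < m → ∃ ρ, s j < ρ ∧ ρ < r j ∧ R.eval ρ = 0 := fun j hj =>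
    gt3_exists_root R (s j) (r j) ((-1) ^ j) (pow_ne_zero _ (by norm_num)) (hsr j hj)
      (hr j hj) (hs j hj)
  choose! ρ hρ using hex
  have hstep : ∀ j, j + 1 < m → ρ (j + 1) < ρ j := by
    intro j hj
    have h1 := hρ (j + 1) hj
    have h2 := hρ j (by omega)
    linarith [hord j hj]
  have hanti : ∀ d i, i + d + 1 < m → ρ (i + d + 1) < ρ i := by
    intro d
    induction d with
    | zero => intro i hi; exact hstep i hi
    | succ d ih =>
      intro i hi
      have h1 := hstep (i + d + 1) (by omega)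
      have h2 := ih i (by omega)
      have e : i + (d + 1) + 1 = i + d + 1 + 1 := by omega
      rw [e]
      linarith
  have hne : ∀ i j, i < m → j < m → i ≠ j → ρ i ≠ ρ j := by
    intro i j hi hj hij
    rcases lt_or_gt_of_ne hij with h | h
    · obtain ⟨d, rfl⟩ : ∃ d, j = i + d + 1 := ⟨j - i - 1, by omega⟩
      exact (hanti d i hj).ne'
    · obtain ⟨d, rfl⟩ : ∃ d, i = j + d + 1 := ⟨i - j - 1, by omega⟩
      exact (hanti d j hi).ne
  refine ⟨ρ, fun j hj => ⟨(hρ j hj).1, (hρ j hj).2.1⟩, ?_⟩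
  apply Finset.prod_dvd_of_coprime
  · intro i hi j hj hij
    have hi' := Finset.mem_range.1 (Finset.mem_coe.1 hi)
    have hj' := Finset.mem_range.1 (Finset.mem_coe.1 hj)
    exact Polynomial.isCoprime_X_sub_C_of_isUnit_sub
      (sub_ne_zero.2 (hne i j hi' hj' hij)).isUnit
  · intro i hi
    rw [Polynomial.dvd_iff_isRoot]
    exact (hρ i (Finset.mem_range.1 hi)).2.2

theorem gt3_monic (ρ : ℕ → ℝ) (m : ℕ) : (∏ j ∈ Finset.range m, (X - C (ρ j))).Monic :=
  Polynomial.monic_prod_of_monic _ _ (fun j _ => Polynomial.monic_X_sub_C (ρ j))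

theorem gt3_natDegree (ρ : ℕ → ℝ) (m : ℕ) :
    (∏ j ∈ Finset.range m, (X - C (ρ j))).natDegree = m := by
  rw [Polynomial.natDegree_prod_of_monic _ _ (fun j _ => Polynomial.monic_X_sub_C (ρ j))]
  simp

theorem gt3_eval_prod (ρ : ℕ → ℝ) (m : ℕ) (x : ℝ) :
    (∏ j ∈ Finset.range m, (X - C (ρ j))).eval x = ∏ j ∈ Finset.range m, (x - ρ j) := by
  rw [Polynomial.eval_prod]
  simp

theorem gt3_prod_neg (a : ℕ → ℝ) (m : ℕ) :
    (-1 : ℝ) ^ m * ∏ j ∈ Finset.range m, a j = ∏ j ∈ Finset.range m, (-a j) := by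
  induction m with
  | zero => simp
  | succ k ih =>
    rw [Finset.prod_range_succ, Finset.prod_range_succ, ← ih]
    ring

/-- A polynomial of degree at most `m` with `m` sign changes on disjoint intervals is a positive
constant times the product of the linear factors of its roots in these intervals. -/
theorem root_location (R : ℝ[X]) (m : ℕ) (s r : ℕ → ℝ) (x₀ : ℝ)
    (hdeg : R.natDegree ≤ m)
    (hsr : ∀ j, j < m → s j < r j)
    (hord : ∀ j, j + 1 < m → r (j + 1) ≤ s j)
    (hr : ∀ j, j < m → 0 < (-1 : ℝ) ^ j * R.eval (r j))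
    (hs : ∀ j, j < m → (-1 : ℝ) ^ j * R.eval (s j) < 0)
    (hx₀ : ∀ j, j < m → r j ≤ x₀) (hR₀ : 0 < R.eval x₀) :
    ∃ (c : ℝ) (ρ : ℕ → ℝ), 0 < c ∧ (∀ j, j < m → s j < ρ j ∧ ρ j < r j) ∧
      R = C c * ∏ j ∈ Finset.range m, (X - C (ρ j)) := by
  obtain ⟨ρ, hρ, G, hG⟩ := gt3_common R m s r hsr hord hr hs
  have hR0 : R ≠ 0 := by
    rintro rfl
    simp at hR₀
  have hDm := gt3_monic ρ m
  have hDd := gt3_natDegree ρ m
  have hG0 : G ≠ 0 := by
    rintro rfl
    rw [mul_zero] at hG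
    exact hR0 hG
  have hdegG : G.natDegree = 0 := by
    have h := hDm.natDegree_mul' hG0
    rw [← hG, hDd] at h
    omega
  obtain ⟨c, rfl⟩ : ∃ c, G = C c := ⟨G.coeff 0, Polynomial.eq_C_of_natDegree_eq_zero hdegG⟩
  have hev : R.eval x₀ = (∏ j ∈ Finset.range m, (x₀ - ρ j)) * c := by
    rw [hG, Polynomial.eval_mul, Polynomial.eval_C, gt3_eval_prod]
  have hpos : 0 < ∏ j ∈ Finset.range m, (x₀ - ρ j) := by
    apply Finset.prod_pos
    intro j hj
    have h1 := hρ j (Finset.mem_range.1 hj)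
    have h2 := hx₀ j (Finset.mem_range.1 hj)
    linarith
  refine ⟨c, ρ, ?_, hρ, ?_⟩
  · by_contra hc
    have hc' : c ≤ 0 := not_lt.1 hc
    have := mul_nonpos_of_nonneg_of_nonpos hpos.le hc'
    linarith
  · rw [hG, mul_comm]

/-- A polynomial of degree `m + 1` with positive leading coefficient and `m` sign changes on
disjoint intervals above `y`, whose sign at `y` is `(-1) ^ m`, has one more root below `y`. -/
theorem root_location_succ (R : ℝ[X]) (m : ℕ) (s r : ℕ → ℝ) (y : ℝ)
    (hdeg : R.natDegree = m + 1) (hlc : 0 < R.leadingCoeff)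
    (hsr : ∀ j, j < m → s j < r j)
    (hord : ∀ j, j + 1 < m → r (j + 1) ≤ s j)
    (hr : ∀ j, j < m → 0 < (-1 : ℝ) ^ j * R.eval (r j))
    (hs : ∀ j, j < m → (-1 : ℝ) ^ j * R.eval (s j) < 0)
    (hy : ∀ j, j < m → y ≤ s j) (hRy : 0 < (-1 : ℝ) ^ m * R.eval y) :
    ∃ ρ : ℕ → ℝ, (∀ j, j < m → s j < ρ j ∧ ρ j < r j) ∧ ρ m < y ∧
      R = C R.leadingCoeff * ∏ j ∈ Finset.range (m + 1), (X - C (ρ j)) := by
  obtain ⟨ρ, hρ, G, hG⟩ := gt3_common R m s r hsr hord hr hs
  have hR0 : R ≠ 0 := by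
    rintro rfl
    simp at hdeg
  have hDm := gt3_monic ρ m
  have hDd := gt3_natDegree ρ m
  have hG0 : G ≠ 0 := by
    rintro rfl
    rw [mul_zero] at hG
    exact hR0 hG
  have hdegG : G.natDegree = 1 := by
    have h := hDm.natDegree_mul' hG0
    rw [← hG, hDd, hdeg] at h
    omega
  have hlcG : G.leadingCoeff = R.leadingCoeff := by
    conv_rhs => rw [hG]
    rw [Polynomial.leadingCoeff_mul, hDm.leadingCoeff, one_mul]
  have hc1 : G.coeff 1 = R.leadingCoeff := by
    rw [← hlcG, Polynomial.leadingCoeff, hdegG]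
  obtain ⟨g0, hGform⟩ : ∃ g0 : ℝ, G = C R.leadingCoeff * X + C g0 := by
    refine ⟨G.coeff 0, ?_⟩
    have h := Polynomial.eq_X_add_C_of_natDegree_le_one hdegG.le
    rw [hc1] at h
    exact h
  have hcne : R.leadingCoeff ≠ 0 := hlc.ne'
  have hGf2 : G = C R.leadingCoeff * (X - C (-g0 / R.leadingCoeff)) := by
    rw [hGform, mul_sub, ← Polynomial.C_mul]
    have e : R.leadingCoeff * (-g0 / R.leadingCoeff) = -g0 := by field_simp
    rw [e, Polynomial.C_neg, sub_neg_eq_add]
  have hevy : R.eval y = (∏ j ∈ Finset.range m, (y - ρ j))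
      * (R.leadingCoeff * (y - -g0 / R.leadingCoeff)) := by
    conv_lhs => rw [hG, hGf2]
    rw [Polynomial.eval_mul, gt3_eval_prod, Polynomial.eval_mul, Polynomial.eval_C,
      Polynomial.eval_sub, Polynomial.eval_X, Polynomial.eval_C]
  have hQpos : 0 < (-1 : ℝ) ^ m * ∏ j ∈ Finset.range m, (y - ρ j) := by
    rw [gt3_prod_neg]
    apply Finset.prod_pos
    intro j hj
    have h1 := hρ j (Finset.mem_range.1 hj)
    have h2 := hy j (Finset.mem_range.1 hj)
    linarith
  have hloc : -g0 / R.leadingCoeff < y := by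
    by_contra hcon
    have hcon' : y - -g0 / R.leadingCoeff ≤ 0 := by linarith [not_lt.1 hcon]
    rw [hevy] at hRy
    have e : (-1 : ℝ) ^ m * ((∏ j ∈ Finset.range m, (y - ρ j))
        * (R.leadingCoeff * (y - -g0 / R.leadingCoeff)))
        = ((-1 : ℝ) ^ m * (∏ j ∈ Finset.range m, (y - ρ j)) * R.leadingCoeff)
          * (y - -g0 / R.leadingCoeff) := by ring
    rw [e] at hRy
    have := mul_nonpos_of_nonneg_of_nonpos (mul_pos hQpos hlc).le hcon'
    linarith
  refine ⟨fun j => if j = m then -g0 / R.leadingCoeff else ρ j, ?_, ?_, ?_⟩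
  · intro j hj
    show s j < (if j = m then -g0 / R.leadingCoeff else ρ j) ∧
      (if j = m then -g0 / R.leadingCoeff else ρ j) < r j
    rw [if_neg hj.ne]
    exact hρ j hj
  · show (if m = m then -g0 / R.leadingCoeff else ρ m) < y
    rw [if_pos rfl]
    exact hloc
  · have hprod : ∏ j ∈ Finset.range (m + 1),
        (X - C ((fun j => if j = m then -g0 / R.leadingCoeff else ρ j) j))
        = (∏ j ∈ Finset.range m, (X - C (ρ j))) * (X - C (-g0 / R.leadingCoeff)) := by
      rw [Finset.prod_range_succ]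
      congr 1
      · apply Finset.prod_congr rfl
        intro j hj
        have hjm : j ≠ m := (Finset.mem_range.1 hj).ne
        simp [hjm]
      · simp
    rw [hprod]
    conv_lhs => rw [hG, hGf2]
    ring

end Vale.Agent.H80.GT
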