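import Vale.Agent.H80.GT.Inter
import Vale.Agent.H80.GT.Root

/-!
# Multiplying by a linear factor, shape `(k, k)` (support for P058)

If `h(x) = E(x²) + x O(x²)` then `h(x) (p x + q) = E'(x²) + x O'(x²)` with
`E' = q E + p X O`, `O' = p E + q O`.  Here: if `(E, O)` is an interlacing pair of shape
`(k, k)` and `p, q > 0`, then `(E', O')` is an interlacing pair of shape `(k + 1, k)`.

TASK GT-7.  Prove `ip_mul_even` (keep the statement EXACTLY; helper lemmas with fresh names
starting `gt7_` inside this file).  Black boxes (may still be open): `prod_sign`, `seq_order`,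
`ip_natDegree`, `ip_leadingCoeff_pos` (GT/Inter.lean), `root_location`, `root_location_succ`
(GT/Root.lean).

Data: `E = C a * ∏_{j<k} (X + C (α j))`, `O = C b * ∏_{j<k} (X + C (β j))`,
`0 < α 0 < β 0 < ... < α (k-1) < β (k-1)`.  Values (`seq_order`, `prod_sign`), for `i < k`:
`E.eval (-α i) = 0`, `O.eval (-β i) = 0`,
`0 < (-1) ^ i * O.eval (-α i)` (the factors `β j - α i` are negative exactly for `j < i`),
`0 < (-1) ^ (i + 1) * E.eval (-β i)` (the factors `α j - β i` are negative exactly for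
`j ≤ i`), `E.eval 0 > 0`, `O.eval 0 > 0`.

A. `E' = C q * E + C p * X * O` has `natDegree = k + 1` and leading coefficient `p * b > 0`
   (`C p * X * O` has degree `k + 1`, `C q * E` degree `k`).  `E'.eval 0 = q * E.eval 0 > 0`;
   `E'.eval (-α i) = -(p * α i) * O.eval (-α i)`, so `0 < (-1) ^ (i + 1) * E'.eval (-α i)`;
   `E'.eval (-β i) = q * E.eval (-β i)`, so `0 < (-1) ^ (i + 1) * E'.eval (-β i)`.
   Apply `root_location_succ E' k s r y` with `r 0 = 0`, `r (j + 1) = -β j`, `s j = -α j`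
   (`j < k`) and `y = -β (k - 1)` if `k ≥ 1`, `y = 0` if `k = 0` (treat `k = 0` separately, or
   use `y := if k = 0 then 0 else -β (k - 1)`): `y ≤ s j`, and
   `0 < (-1) ^ k * E'.eval y` (for `k ≥ 1` this is the value at `-β (k - 1)`, for `k = 0` it is
   `E'.eval 0 > 0`).  Result: `E' = C E'.leadingCoeff * ∏_{j<k+1} (X - C (ρ j))` with
   `-α j < ρ j < r j` (`j < k`) and `ρ k < y`; with `α' j := -ρ j`: `0 < α' 0 < α 0`,
   `β (j - 1) < α' j < α j` (`1 ≤ j < k`), and `α' k > β (k - 1)` (`k ≥ 1`) resp. `α' 0 > 0`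
   (`k = 0`).
B. `O' = C p * E + C q * O` (`natDegree ≤ k`).  `O'.eval 0 > 0`;
   `O'.eval (-α i) = q * O.eval (-α i)`, so `0 < (-1) ^ i * O'.eval (-α i)`;
   `O'.eval (-β i) = p * E.eval (-β i)`, so `0 < (-1) ^ (i + 1) * O'.eval (-β i)`.
   Apply `root_location O' k s r 0` with `r j = -α j`, `s j = -β j`: result
   `O' = C b' * ∏_{j<k} (X - C (σ j))`, `b' > 0`, `-β j < σ j < -α j`; with `β' j := -σ j`:
   `α j < β' j < β j`.
C. `IP (k + 1) k E' O'` with the data `(E'.leadingCoeff, b', α', β')`: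
   `α' j < α j < β' j` (`j < k`) and `β' j < β j < α' (j + 1)` (`j < k`; for `j + 1 = k` use
   `α' k > β (k - 1)`).
-/

namespace Vale.Agent.H80.GT

open Polynomial

/-- Value of a product of linear factors. -/
theorem gt7_eval (a : ℝ) (k : ℕ) (α : ℕ → ℝ) (x : ℝ) :
    (C a * ∏ j ∈ Finset.range k, (X + C (α j))).eval x
      = a * ∏ j ∈ Finset.range k, (x + α j) := by
  rw [eval_mul, eval_C, eval_prod]
  simp

/-- The product vanishes at `-α i`. -/
theorem gt7_eval_root (a : ℝ) (k : ℕ) (α : ℕ → ℝ) (i : ℕ) (hi : i < k) :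
    (C a * ∏ j ∈ Finset.range k, (X + C (α j))).eval (-α i) = 0 := by
  rw [gt7_eval, Finset.prod_eq_zero (Finset.mem_range.mpr hi) (neg_add_cancel (α i)), mul_zero]

/-- The product is positive at `0`. -/
theorem gt7_eval_zero_pos (a : ℝ) (ha : 0 < a) (k : ℕ) (α : ℕ → ℝ)
    (hα : ∀ j, j < k → 0 < α j) :
    0 < (C a * ∏ j ∈ Finset.range k, (X + C (α j))).eval 0 := by
  rw [gt7_eval]
  refine mul_pos ha (Finset.prod_pos (fun j hj => ?_))
  have := hα j (Finset.mem_range.mp hj)
  linarith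

/-- Sign of `O` at `-α i`. -/
theorem gt7_sign_O (k : ℕ) (b : ℝ) (hb : 0 < b) (α β : ℕ → ℝ)
    (o1 : ∀ i j, j ≤ i → i < k → α j < β i) (o2 : ∀ i j, i < j → j < k → β i < α j)
    (i : ℕ) (hi : i < k) :
    0 < (-1 : ℝ) ^ i * (C b * ∏ j ∈ Finset.range k, (X + C (β j))).eval (-α i) := by
  rw [gt7_eval]
  have h := prod_sign k (fun j => -α i + β j) i hi.le
    (fun j hj => by
      have := o2 j i hj hi
      show -α i + β j < 0
      linarith)
    (fun j hij hj => by
      have := o1 j i hij hj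
      show 0 < -α i + β j
      linarith)
  have e : (-1 : ℝ) ^ i * (b * ∏ j ∈ Finset.range k, (-α i + β j))
      = b * ((-1 : ℝ) ^ i * ∏ j ∈ Finset.range k, (-α i + β j)) := by ring
  rw [e]
  exact mul_pos hb h

/-- Sign of `E` at `-β i`. -/
theorem gt7_sign_E (k : ℕ) (a : ℝ) (ha : 0 < a) (α β : ℕ → ℝ)
    (o1 : ∀ i j, j ≤ i → i < k → α j < β i) (o2 : ∀ i j, i < j → j < k → β i < α j)
    (i : ℕ) (hi : i < k) :
    0 < (-1 : ℝ) ^ (i + 1) * (C a * ∏ j ∈ Finset.range k, (X + C (α j))).eval (-β i) := by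
  rw [gt7_eval]
  have h := prod_sign k (fun j => -β i + α j) (i + 1) (Nat.succ_le_of_lt hi)
    (fun j hj => by
      have := o1 i j (Nat.lt_succ_iff.mp hj) hi
      show -β i + α j < 0
      linarith)
    (fun j hij hj => by
      have := o2 i j (Nat.lt_of_succ_le hij) hj
      show 0 < -β i + α j
      linarith)
  have e : (-1 : ℝ) ^ (i + 1) * (a * ∏ j ∈ Finset.range k, (-β i + α j))
      = a * ((-1 : ℝ) ^ (i + 1) * ∏ j ∈ Finset.range k, (-β i + α j)) := by ring
  rw [e]
  exact mul_pos ha h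

/-- Rewriting the linear factors. -/
theorem gt7_prod_neg (m : ℕ) (ρ : ℕ → ℝ) :
    ∏ j ∈ Finset.range m, ((X : ℝ[X]) - C (ρ j))
      = ∏ j ∈ Finset.range m, ((X : ℝ[X]) + C (-ρ j)) := by
  refine Finset.prod_congr rfl (fun j _ => ?_)
  rw [C_neg, sub_eq_add_neg]

/-- Multiplication by `p x + q`, shape `(k, k)`. -/
theorem ip_mul_even (k : ℕ) (E O : ℝ[X]) (p q : ℝ) (hp : 0 < p) (hq : 0 < q)
    (h : IP k k E O) :
    IP (k + 1) k (C q * E + C p * X * O) (C p * E + C q * O) := by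
  have hdeg := ip_natDegree h
  have hlc := ip_leadingCoeff_pos h
  obtain ⟨a, b, α, β, ha, hb, hα, h1, h2, hE, hO⟩ := h
  obtain ⟨o1, o2, -, -⟩ := seq_order k k (Nat.le_succ k) le_rfl α β h1 h2
  have hβ : ∀ j, j < k → 0 < β j := fun j hj => lt_trans (hα j hj) (h1 j hj hj)
  -- values of `E` and `O`
  have E0 : 0 < E.eval 0 := by
    rw [hE]
    exact gt7_eval_zero_pos a ha k α hα
  have O0 : 0 < O.eval 0 := by
    rw [hO]
    exact gt7_eval_zero_pos b hb k β hβ
  have Eα : ∀ i, i < k → E.eval (-α i) = 0 := fun i hi => by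
    rw [hE]
    exact gt7_eval_root a k α i hi
  have Oβ : ∀ i, i < k → O.eval (-β i) = 0 := fun i hi => by
    rw [hO]
    exact gt7_eval_root b k β i hi
  have Oα : ∀ i, i < k → 0 < (-1 : ℝ) ^ i * O.eval (-α i) := fun i hi => by
    rw [hO]
    exact gt7_sign_O k b hb α β o1 o2 i hi
  have Eβ : ∀ i, i < k → 0 < (-1 : ℝ) ^ (i + 1) * E.eval (-β i) := fun i hi => by
    rw [hE]
    exact gt7_sign_E k a ha α β o1 o2 i hi
  have hO_ne : O ≠ 0 := by
    intro h0
    have := hlc.2
    rw [h0, leadingCoeff_zero] at this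
    exact lt_irrefl _ this
  clear hE hO
  -- the two new polynomials
  obtain ⟨E', hE'⟩ : ∃ E' : ℝ[X], E' = C q * E + C p * X * O := ⟨_, rfl⟩
  obtain ⟨O', hO'⟩ : ∃ O' : ℝ[X], O' = C p * E + C q * O := ⟨_, rfl⟩
  rw [← hE', ← hO']
  have evE' : ∀ x : ℝ, E'.eval x = q * E.eval x + p * x * O.eval x := by
    intro x
    rw [hE']
    simp
  have evO' : ∀ x : ℝ, O'.eval x = p * E.eval x + q * O.eval x := by
    intro x
    rw [hO']
    simp
  -- Part A: degree, leading coefficient and values of `E'`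
  have hd0 : (C q * E).natDegree = k := by
    rw [natDegree_C_mul hq.ne', hdeg.1]
  have hd1 : (C p * X * O).natDegree = k + 1 := by
    rw [mul_assoc, natDegree_C_mul hp.ne', natDegree_X_mul hO_ne, hdeg.2]
  have hlt : (C q * E).natDegree < (C p * X * O).natDegree := by
    rw [hd0, hd1]
    exact Nat.lt_succ_self k
  have hdE' : E'.natDegree = k + 1 := by
    rw [hE', natDegree_add_eq_right_of_natDegree_lt hlt, hd1]
  have hlcE' : 0 < E'.leadingCoeff := by
    rw [hE', leadingCoeff_add_of_degree_lt (degree_lt_degree hlt), leadingCoeff_mul,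
      leadingCoeff_mul, leadingCoeff_C, leadingCoeff_X, mul_one]
    exact mul_pos hp hlc.2
  have E'0 : 0 < E'.eval 0 := by
    rw [evE']
    have e : q * E.eval 0 + p * 0 * O.eval 0 = q * E.eval 0 := by ring
    rw [e]
    exact mul_pos hq E0
  have E'α : ∀ i, i < k → (-1 : ℝ) ^ i * E'.eval (-α i) < 0 := by
    intro i hi
    rw [evE', Eα i hi]
    have e : (-1 : ℝ) ^ i * (q * 0 + p * -α i * O.eval (-α i))
        = -((p * α i) * ((-1 : ℝ) ^ i * O.eval (-α i))) := by ring
    rw [e]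
    have := mul_pos (mul_pos hp (hα i hi)) (Oα i hi)
    linarith
  have E'β : ∀ i, i < k → 0 < (-1 : ℝ) ^ (i + 1) * E'.eval (-β i) := by
    intro i hi
    rw [evE', Oβ i hi]
    have e : (-1 : ℝ) ^ (i + 1) * (q * E.eval (-β i) + p * -β i * 0)
        = q * ((-1 : ℝ) ^ (i + 1) * E.eval (-β i)) := by ring
    rw [e]
    exact mul_pos hq (Eβ i hi)
  -- the intervals for `E'`
  obtain ⟨r, hr0, hrs⟩ : ∃ r : ℕ → ℝ, r 0 = 0 ∧ ∀ j, r (j + 1) = -β j :=
    ⟨fun j => Nat.rec (0 : ℝ) (fun j' _ => -β j') j, rfl, fun _ => rfl⟩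
  obtain ⟨y, hy0, hy1⟩ : ∃ y : ℝ, (k = 0 → y = 0) ∧ (∀ k', k = k' + 1 → y = -β k') := by
    rcases Nat.eq_zero_or_pos k with hk | hk
    · exact ⟨0, fun _ => rfl, fun k' hk' => by omega⟩
    · refine ⟨-β (k - 1), fun hk0 => by omega, fun k' hk' => ?_⟩
      have : k - 1 = k' := by omega
      rw [this]
  have hsrA : ∀ j, j < k → (fun j => -α j) j < r j := by
    intro j hj
    rcases j with _ | j'
    · rw [hr0]
      show -α 0 < 0
      linarith [hα 0 hj]
    · rw [hrs]
      show -α (j' + 1) < -β j'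
      linarith [h2 j' hj (by omega)]
  have hordA : ∀ j, j + 1 < k → r (j + 1) ≤ (fun j => -α j) j := by
    intro j hj
    rw [hrs]
    show -β j ≤ -α j
    linarith [h1 j (by omega) (by omega)]
  have hrA : ∀ j, j < k → 0 < (-1 : ℝ) ^ j * E'.eval (r j) := by
    intro j hj
    rcases j with _ | j'
    · rw [hr0, pow_zero, one_mul]
      exact E'0
    · rw [hrs]
      exact E'β j' (by omega)
  have hsA : ∀ j, j < k → (-1 : ℝ) ^ j * E'.eval ((fun j => -α j) j) < 0 :=
    fun j hj => E'α j hj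
  have hyA : ∀ j, j < k → y ≤ (fun j => -α j) j := by
    intro j hj
    have hk : k = (k - 1) + 1 := by omega
    rw [hy1 (k - 1) hk]
    show -β (k - 1) ≤ -α j
    linarith [o1 (k - 1) j (by omega) (by omega)]
  have hRyA : 0 < (-1 : ℝ) ^ k * E'.eval y := by
    rcases Nat.eq_zero_or_pos k with hk0 | hkpos
    · rw [hy0 hk0, hk0, pow_zero, one_mul]
      exact E'0
    · have hk : k = (k - 1) + 1 := by omega
      rw [hy1 (k - 1) hk]
      have h3 := E'β (k - 1) (by omega)
      rw [← hk] at h3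
      exact h3
  obtain ⟨ρ, hρ, hρk, hEfact⟩ :=
    root_location_succ E' k (fun j => -α j) r y hdE' hlcE' hsrA hordA hrA hsA hyA hRyA
  have A1 : 0 < -ρ 0 := by
    rcases Nat.eq_zero_or_pos k with hk0 | hkpos
    · have h3 := hρk
      rw [hy0 hk0, hk0] at h3
      linarith
    · have h3 := (hρ 0 hkpos).2
      rw [hr0] at h3
      linarith
  have A2 : ∀ j, j < k → β j < -ρ (j + 1) := by
    intro j hj
    rcases Nat.lt_or_ge (j + 1) k with hlt' | hge
    · have h3 := (hρ (j + 1) hlt').2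
      rw [hrs] at h3
      linarith
    · have hk : k = j + 1 := by omega
      have h3 := hρk
      rw [hy1 j hk, hk] at h3
      linarith
  have A3 : ∀ j, j < k → -ρ j < α j := by
    intro j hj
    have h3 : -α j < ρ j := (hρ j hj).1
    linarith
  -- Part B
  have hdO' : O'.natDegree ≤ k := by
    rw [hO']
    exact natDegree_add_le_of_degree_le ((natDegree_C_mul_le p E).trans hdeg.1.le)
      ((natDegree_C_mul_le q O).trans hdeg.2.le)
  have O'0 : 0 < O'.eval 0 := by
    rw [evO']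
    have := mul_pos hp E0
    have := mul_pos hq O0
    linarith
  have O'α : ∀ i, i < k → 0 < (-1 : ℝ) ^ i * O'.eval (-α i) := by
    intro i hi
    rw [evO', Eα i hi]
    have e : (-1 : ℝ) ^ i * (p * 0 + q * O.eval (-α i))
        = q * ((-1 : ℝ) ^ i * O.eval (-α i)) := by ring
    rw [e]
    exact mul_pos hq (Oα i hi)
  have O'β : ∀ i, i < k → (-1 : ℝ) ^ i * O'.eval (-β i) < 0 := by
    intro i hi
    rw [evO', Oβ i hi]
    have e : (-1 : ℝ) ^ i * (p * E.eval (-β i) + q * 0)
        = -(p * ((-1 : ℝ) ^ (i + 1) * E.eval (-β i))) := by ring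
    rw [e]
    have := mul_pos hp (Eβ i hi)
    linarith
  have hsrB : ∀ j, j < k → (fun j => -β j) j < (fun j => -α j) j := by
    intro j hj
    show -β j < -α j
    linarith [h1 j hj hj]
  have hordB : ∀ j, j + 1 < k → (fun j => -α j) (j + 1) ≤ (fun j => -β j) j := by
    intro j hj
    show -α (j + 1) ≤ -β j
    linarith [h2 j hj (by omega)]
  have hx0B : ∀ j, j < k → (fun j => -α j) j ≤ 0 := by
    intro j hj
    show -α j ≤ 0
    linarith [hα j hj]
  obtain ⟨b', σ, hb', hσ, hOfact⟩ :=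
    root_location O' k (fun j => -β j) (fun j => -α j) 0 hdO' hsrB hordB
      (fun j hj => O'α j hj) (fun j hj => O'β j hj) hx0B O'0
  have B1 : ∀ j, j < k → α j < -σ j := by
    intro j hj
    have h3 : σ j < -α j := (hσ j hj).2
    linarith
  have B2 : ∀ j, j < k → -σ j < β j := by
    intro j hj
    have h3 : -β j < σ j := (hσ j hj).1
    linarith
  -- Part C
  have hEfact' : E' = C E'.leadingCoeff * ∏ j ∈ Finset.range (k + 1), (X + C (-ρ j)) := by
    rw [← gt7_prod_neg]
    exact hEfact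
  have hOfact' : O' = C b' * ∏ j ∈ Finset.range k, (X + C (-σ j)) := by
    rw [← gt7_prod_neg]
    exact hOfact
  refine ⟨E'.leadingCoeff, b', fun j => -ρ j, fun j => -σ j, hlcE', hb', ?_, ?_, ?_,
    hEfact', hOfact'⟩
  · intro j hj
    rcases j with _ | j'
    · exact A1
    · have h3 := A2 j' (by omega)
      have h4 := hβ j' (by omega)
      show 0 < -ρ (j' + 1)
      linarith
  · intro j _ hj
    have h3 := A3 j hj
    have h4 := B1 j hj
    show -ρ j < -σ j
    linarith
  · intro j _ hj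
    have h3 := B2 j hj
    have h4 := A2 j hj
    show -σ j < -ρ (j + 1)
    linarith

end Vale.Agent.H80.GT
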