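import Vale.Agent.H80.GT.Inter
import Vale.Agent.H80.GT.Root

/-!
# Multiplying by a linear factor, shape `(l + 1, l)` (support for P058)

If `h(x) = E(x²) + x O(x²)` then `h(x) (p x + q) = E'(x²) + x O'(x²)` with
`E' = q E + p X O`, `O' = p E + q O`.  Here: if `(E, O)` is an interlacing pair of shape
`(l + 1, l)` and `p, q > 0`, then `(E', O')` is an interlacing pair of shape `(l + 1, l + 1)`.

TASK GT-6 (done, seat H26).  `ip_mul_odd` is proved from the black boxes `prod_sign`, `seq_order`,
`ip_natDegree`, `ip_leadingCoeff_pos` (GT/Inter.lean), `root_location`, `root_location_succ`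
(GT/Root.lean); helper lemmas `gt6_*`.

Data: `E = C a * ∏_{j<l+1} (X + C (α j))`, `O = C b * ∏_{j<l} (X + C (β j))`,
`0 < α 0 < β 0 < ... < β (l-1) < α l`.  Values (`seq_order`, `prod_sign`):
`E.eval (-α i) = 0` (`i ≤ l`), `O.eval (-β i) = 0` (`i < l`),
`0 < (-1) ^ i * O.eval (-α i)` (`i ≤ l`; the factors `β j - α i` are negative exactly for
`j < i`), `0 < (-1) ^ (i + 1) * E.eval (-β i)` (`i < l`; the factors `α j - β i` are negative
exactly for `j ≤ i`), `E.eval 0 > 0`, `O.eval 0 > 0`.

A. `E' = C q * E + C p * X * O` (`natDegree ≤ l + 1`).  `E'.eval 0 = q * E.eval 0 > 0`;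
   `E'.eval (-α i) = -(p * α i) * O.eval (-α i)`, so `0 < (-1) ^ (i + 1) * E'.eval (-α i)`;
   `E'.eval (-β i) = q * E.eval (-β i)`, so `0 < (-1) ^ (i + 1) * E'.eval (-β i)`.
   Apply `root_location E' (l + 1) s r 0` with `r 0 = 0`, `r (j + 1) = -β j`, `s j = -α j`.
B. `O' = C p * E + C q * O` has `natDegree = l + 1` and leading coefficient `p * a > 0`.
   Apply `root_location_succ O' l s r (-α l)` with `r j = -α j`, `s j = -β j` (`j < l`).
C. `IP (l + 1) (l + 1) E' O'` with the new roots.
-/

namespace Vale.Agent.H80.GT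

open Polynomial

lemma gt6_eval (a : ℝ) (k : ℕ) (γ : ℕ → ℝ) (x : ℝ) :
    (C a * ∏ j ∈ Finset.range k, (X + C (γ j))).eval x
      = a * ∏ j ∈ Finset.range k, (x + γ j) := by
  simp [eval_mul, eval_prod]

lemma gt6_eval_root (a : ℝ) (k : ℕ) (γ : ℕ → ℝ) (i : ℕ) (hi : i < k) :
    (C a * ∏ j ∈ Finset.range k, (X + C (γ j))).eval (-γ i) = 0 := by
  rw [gt6_eval, Finset.prod_eq_zero (Finset.mem_range.mpr hi) (by ring), mul_zero]

lemma gt6_prod_eq (c : ℝ) (k : ℕ) (ρ : ℕ → ℝ) :
    C c * ∏ j ∈ Finset.range k, (X - C (ρ j))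
      = C c * ∏ j ∈ Finset.range k, (X + C ((fun j => -ρ j) j)) := by
  congr 1
  refine Finset.prod_congr rfl (fun j _ => ?_)
  simp [sub_eq_add_neg]

/-- Multiplication by `p x + q`, shape `(l + 1, l)`. -/
theorem ip_mul_odd (l : ℕ) (E O : ℝ[X]) (p q : ℝ) (hp : 0 < p) (hq : 0 < q)
    (h : IP (l + 1) l E O) :
    IP (l + 1) (l + 1) (C q * E + C p * X * O) (C p * E + C q * O) := by
  have hdegs := ip_natDegree h
  have hlcs := ip_leadingCoeff_pos h
  obtain ⟨a, b, α, β, ha, hb, hα, h1, h2, hE, hO⟩ := h
  obtain ⟨S1, S2, S3, S4⟩ := seq_order (l + 1) l le_rfl (Nat.le_succ l) α β h1 h2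
  have hβpos : ∀ j, j < l → 0 < β j := fun j hj =>
    lt_trans (hα j (by omega)) (h1 j (by omega) hj)
  -- values of `E` and `O`
  have hEα : ∀ i, i < l + 1 → E.eval (-α i) = 0 := fun i hi => by
    rw [hE]; exact gt6_eval_root a (l + 1) α i hi
  have hOβ : ∀ i, i < l → O.eval (-β i) = 0 := fun i hi => by
    rw [hO]; exact gt6_eval_root b l β i hi
  have hOα : ∀ i, i < l + 1 → 0 < (-1 : ℝ) ^ i * O.eval (-α i) := by
    intro i hi
    rw [hO, gt6_eval]
    have hs := prod_sign l (fun j => -α i + β j) i (by omega)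
      (fun j hj => by
        have := S2 j i hj hi
        linarith)
      (fun j hij hj => by
        have := S1 j i hij hj
        linarith)
    have : (-1 : ℝ) ^ i * (b * ∏ j ∈ Finset.range l, (-α i + β j))
        = b * ((-1 : ℝ) ^ i * ∏ j ∈ Finset.range l, (-α i + β j)) := by ring
    rw [this]
    exact mul_pos hb hs
  have hEβ : ∀ i, i < l → 0 < (-1 : ℝ) ^ (i + 1) * E.eval (-β i) := by
    intro i hi
    rw [hE, gt6_eval]
    have hs := prod_sign (l + 1) (fun j => -β i + α j) (i + 1) (by omega)
      (fun j hj => by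
        have := S1 i j (by omega) hi
        linarith)
      (fun j hij hj => by
        have := S2 i j (by omega) hj
        linarith)
    have : (-1 : ℝ) ^ (i + 1) * (a * ∏ j ∈ Finset.range (l + 1), (-β i + α j))
        = a * ((-1 : ℝ) ^ (i + 1) * ∏ j ∈ Finset.range (l + 1), (-β i + α j)) := by ring
    rw [this]
    exact mul_pos ha hs
  have hE0 : 0 < E.eval 0 := by
    rw [hE, gt6_eval]
    refine mul_pos ha (Finset.prod_pos (fun j hj => ?_))
    have := hα j (Finset.mem_range.mp hj)
    linarith
  -- the two new polynomials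
  set E' : ℝ[X] := C q * E + C p * X * O with hE'
  set O' : ℝ[X] := C p * E + C q * O with hO'
  have evE' : ∀ x : ℝ, E'.eval x = q * E.eval x + p * x * O.eval x := fun x => by
    simp [hE']
  have evO' : ∀ x : ℝ, O'.eval x = p * E.eval x + q * O.eval x := fun x => by
    simp [hO']
  -- signs of `E'`
  have hE'0 : 0 < E'.eval 0 := by
    rw [evE']; simp only [mul_zero, zero_mul, add_zero]; exact mul_pos hq hE0
  have hE'α : ∀ i, i < l + 1 → 0 < (-1 : ℝ) ^ (i + 1) * E'.eval (-α i) := by
    intro i hi
    rw [evE', hEα i hi]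
    have h3 := hOα i hi
    have h4 := hα i hi
    have : (-1 : ℝ) ^ (i + 1) * (q * 0 + p * -α i * eval (-α i) O)
        = (p * α i) * ((-1 : ℝ) ^ i * eval (-α i) O) := by ring
    rw [this]
    exact mul_pos (mul_pos hp h4) h3
  have hE'β : ∀ i, i < l → 0 < (-1 : ℝ) ^ (i + 1) * E'.eval (-β i) := by
    intro i hi
    rw [evE', hOβ i hi]
    have h3 := hEβ i hi
    have : (-1 : ℝ) ^ (i + 1) * (q * eval (-β i) E + p * -β i * 0)
        = q * ((-1 : ℝ) ^ (i + 1) * eval (-β i) E) := by ring
    rw [this]
    exact mul_pos hq h3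
  -- signs of `O'`
  have hO'α : ∀ i, i < l + 1 → 0 < (-1 : ℝ) ^ i * O'.eval (-α i) := by
    intro i hi
    rw [evO', hEα i hi]
    have h3 := hOα i hi
    have : (-1 : ℝ) ^ i * (p * 0 + q * eval (-α i) O)
        = q * ((-1 : ℝ) ^ i * eval (-α i) O) := by ring
    rw [this]
    exact mul_pos hq h3
  have hO'β : ∀ i, i < l → 0 < (-1 : ℝ) ^ (i + 1) * O'.eval (-β i) := by
    intro i hi
    rw [evO', hOβ i hi]
    have h3 := hEβ i hi
    have : (-1 : ℝ) ^ (i + 1) * (p * eval (-β i) E + q * 0)
        = p * ((-1 : ℝ) ^ (i + 1) * eval (-β i) E) := by ring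
    rw [this]
    exact mul_pos hp h3
  -- degrees
  have hE'deg : E'.natDegree ≤ l + 1 := by
    refine natDegree_add_le_of_degree_le ?_ ?_
    · exact (natDegree_C_mul_le q E).trans hdegs.1.le
    · refine natDegree_mul_le.trans ?_
      have h5 : (C p * X : ℝ[X]).natDegree ≤ 1 := by
        rw [natDegree_C_mul_X p hp.ne']
      rw [hdegs.2] at *
      omega
  have hpE : (C p * E).natDegree = l + 1 := by
    rw [natDegree_C_mul hp.ne', hdegs.1]
  have hqO : (C q * O).natDegree < (C p * E).natDegree := by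
    rw [hpE]
    exact lt_of_le_of_lt (natDegree_C_mul_le q O) (by rw [hdegs.2]; omega)
  have hO'deg : O'.natDegree = l + 1 := by
    rw [hO', natDegree_add_eq_left_of_natDegree_lt hqO, hpE]
  have hO'lc : 0 < O'.leadingCoeff := by
    rw [hO', leadingCoeff_add_of_degree_lt' (degree_lt_degree hqO), leadingCoeff_mul,
      leadingCoeff_C]
    exact mul_pos hp hlcs.1
  -- A: the roots of `E'`
  set r : ℕ → ℝ := fun j => if j = 0 then 0 else -β (j - 1) with hrdef
  have hr0 : r 0 = 0 := by simp [hrdef]
  have hrs : ∀ j, r (j + 1) = -β j := fun j => by simp [hrdef]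
  obtain ⟨c, ρ, hc, hρ, hE'eq⟩ := root_location E' (l + 1)
    (fun j => -α j) r 0 hE'deg
    (by
      intro j hj
      cases j with
      | zero =>
        have := hα 0 hj
        rw [hr0]; linarith
      | succ j' =>
        have := S2 j' (j' + 1) (by omega) hj
        rw [hrs]; linarith)
    (by
      intro j hj
      have := h1 j (by omega) (by omega)
      rw [hrs]; linarith)
    (by
      intro j hj
      cases j with
      | zero => rw [hr0]; simpa using hE'0
      | succ j' => rw [hrs]; exact hE'β j' (by omega))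
    (by
      intro j hj
      have := hE'α j hj
      rw [pow_succ] at this
      linarith)
    (by
      intro j hj
      cases j with
      | zero => rw [hr0]
      | succ j' =>
        have := hβpos j' (by omega)
        rw [hrs]; linarith)
    hE'0
  -- B: the roots of `O'`
  obtain ⟨σ, hσ, hσl, hO'eq⟩ := root_location_succ O' l
    (fun j => -β j) (fun j => -α j) (-α l) hO'deg hO'lc
    (by
      intro j hj
      have := h1 j (by omega) hj
      simpa using this)
    (by
      intro j hj
      have := S2 j (j + 1) (by omega) (by omega)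
      simpa using this.le)
    (by
      intro j hj
      exact hO'α j (by omega))
    (by
      intro j hj
      have := hO'β j hj
      rw [pow_succ] at this
      linarith)
    (by
      intro j hj
      have := S2 j l hj (by omega)
      simpa using this.le)
    (hO'α l (by omega))
  -- C: assemble
  refine ⟨c, O'.leadingCoeff, fun j => -ρ j, fun j => -σ j, hc, hO'lc, ?_, ?_, ?_, ?_, ?_⟩
  · intro j hj
    have := (hρ j hj).2
    cases j with
    | zero => rw [hr0] at this; beta_reduce; linarith
    | succ j' =>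
      have h6 := hβpos j' (by omega)
      rw [hrs] at this; beta_reduce; linarith
  · intro j hj _
    have h7 := (hρ j hj).1
    beta_reduce at h7 ⊢
    rcases Nat.lt_or_ge j l with hjl | hjl
    · have := (hσ j hjl).2
      beta_reduce at this
      linarith
    · have hjeq : j = l := by omega
      subst hjeq
      linarith
  · intro j hj _
    have hjl : j < l := by omega
    have h8 := (hσ j hjl).1
    have h9 := (hρ (j + 1) (by omega)).2
    rw [hrs] at h9
    beta_reduce at h8 ⊢
    linarith
  · exact hE'eq.trans (gt6_prod_eq c (l + 1) ρ)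
  · exact hO'eq.trans (gt6_prod_eq O'.leadingCoeff (l + 1) σ)

end Vale.Agent.H80.GT
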