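import Vale.Agent.H80.GT.CF
import Vale.Agent.H80.GT.MOdd
import Vale.Agent.H80.GT.MEven

/-!
# From a product of linear factors to `1 ∈ SCone` (support for P058)

Let `L` be a nonempty list of reals in `(0, 1)` containing `mu`, such that the polynomial
`H = ∏_{m ∈ L} ((1 - m) X + m)` has rational coefficients.  Then `1 ∈ SCone (mu / (1 - mu))`.

TASK GT-9.  Prove `scone_one_of_list` (keep the statement EXACTLY; helper lemmas with fresh names
starting `gt9_` inside this file).  Black boxes (may still be open): `ip_mul_odd`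
(GT/MOdd.lean), `ip_mul_even` (GT/MEven.lean), `cf_even`, `cf_odd` (GT/CF.lean), `ip_eval_pos`
(GT/Inter.lean).

1. Helper `gt9_parts`: for every list `L ≠ []` of reals in `(0, 1)` there are `k l : ℕ` and
   `E O : ℝ[X]` with `(l = k ∨ k = l + 1)`, `IP k l E O` and
   `expand ℝ 2 E + X * expand ℝ 2 O = (L.map (fun m => C (1 - m) * X + C m)).prod`.
   Induction on the list.  For `[m]`: `E = C m`, `O = C (1 - m)`, `IP 0 0` with the data
   `(m, 1 - m, _, _)` (empty products, `Finset.range_zero`, `Finset.prod_empty`).  For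
   `m :: L'` with `L' ≠ []`: take `(k, l, E, O)` for `L'`, `p = 1 - m`, `q = m`,
   `E' = C q * E + C p * X * O`, `O' = C p * E + C q * O`; `ip_mul_even` if `l = k` (new shape
   `(k + 1, k)`), `ip_mul_odd` if `k = l + 1` (new shape `(l + 1, l + 1)`); and
   `expand ℝ 2 E' + X * expand ℝ 2 O' = (C p * X + C q) * (expand ℝ 2 E + X * expand ℝ 2 O)`
   because `expand ℝ 2` is a ring homomorphism with `expand ℝ 2 X = X ^ 2`
   (`map_add`, `map_mul`, `expand_C`, `expand_X`, then `ring`).
2. Helper `gt9_rat`: if `RatP (expand ℝ 2 E + X * expand ℝ 2 O)` then `RatP E` and `RatP O`: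
   `E.coeff n` is the coefficient `2 * n` of the sum and `O.coeff n` the coefficient
   `2 * n + 1` (`coeff_add`, `coeff_expand` (with `2 ∣ ·`), `coeff_X_mul`, `coeff_X_mul_zero`;
   an odd index is not divisible by `2`).
3. Evaluation at `x = -th`, `th = mu / (1 - mu) > 0`: the factor for `m = mu` vanishes
   (`(1 - mu) * (-th) + mu = 0`), so the product vanishes at `-th`
   (`eval_list_prod`, `List.prod_eq_zero`, `List.mem_map`); by `expand_eval`
   (`(expand ℝ 2 E).eval x = E.eval (x ^ 2)`), `E.eval (th ^ 2) = th * O.eval (th ^ 2)`.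
4. `E.eval (th ^ 2) > 0`, `O.eval (th ^ 2) > 0` (`ip_eval_pos`, `l ≤ k` in both shapes).  If
   `l = k`: `cf_even` gives `SCone th (th * O.eval (th ^ 2) / E.eval (th ^ 2))`, and the value is
   `1`.  If `k = l + 1`: `cf_odd` gives `SCone th (E.eval (th ^ 2) / (th * O.eval (th ^ 2)))`,
   again the value is `1`.
-/

namespace Vale.Agent.H80.GT

open Polynomial

/-- The even and odd parts of a product of linear factors form an interlacing pair. -/
theorem gt9_parts (L : List ℝ) (hL : L ≠ []) (h01 : ∀ m ∈ L, 0 < m ∧ m < 1) :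
    ∃ (k l : ℕ) (E O : ℝ[X]), (l = k ∨ k = l + 1) ∧ IP k l E O ∧
      expand ℝ 2 E + X * expand ℝ 2 O = (L.map (fun m => C (1 - m) * X + C m)).prod := by
  induction L with
  | nil => exact absurd rfl hL
  | cons m L' ih =>
    have hm := h01 m List.mem_cons_self
    by_cases hL' : L' = []
    · subst hL'
      refine ⟨0, 0, C m, C (1 - m), Or.inl rfl, ?_, ?_⟩
      · refine ⟨m, 1 - m, fun _ => 0, fun _ => 0, hm.1, by linarith [hm.2], ?_, ?_, ?_, ?_, ?_⟩
        · intro j hj
          exact absurd hj (Nat.not_lt_zero _)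
        · intro j hj
          exact absurd hj (Nat.not_lt_zero _)
        · intro j hj
          exact absurd hj (Nat.not_lt_zero _)
        · simp
        · simp
      · simp only [expand_C, List.map_cons, List.map_nil, List.prod_cons, List.prod_nil]
        ring
    · obtain ⟨k, l, E, O, hkl, hIP, hexp⟩ :=
        ih hL' (fun x hx => h01 x (List.mem_cons_of_mem _ hx))
      have hp : 0 < 1 - m := by linarith [hm.2]
      have hq : 0 < m := hm.1
      have key : expand ℝ 2 (C m * E + C (1 - m) * X * O)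
            + X * expand ℝ 2 (C (1 - m) * E + C m * O)
          = (C (1 - m) * X + C m) * (expand ℝ 2 E + X * expand ℝ 2 O) := by
        simp only [map_add, map_mul, expand_C, expand_X]
        ring
      rcases hkl with h | h
      · rw [h] at hIP
        refine ⟨k + 1, k, C m * E + C (1 - m) * X * O, C (1 - m) * E + C m * O, Or.inr rfl,
          ip_mul_even k E O (1 - m) m hp hq hIP, ?_⟩
        rw [key, hexp, List.map_cons, List.prod_cons]
      · rw [h] at hIP
        refine ⟨l + 1, l + 1, C m * E + C (1 - m) * X * O, C (1 - m) * E + C m * O, Or.inl rfl,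
          ip_mul_odd l E O (1 - m) m hp hq hIP, ?_⟩
        rw [key, hexp, List.map_cons, List.prod_cons]

/-- Rationality of the even and odd parts. -/
theorem gt9_rat (E O : ℝ[X]) (h : RatP (expand ℝ 2 E + X * expand ℝ 2 O)) :
    RatP E ∧ RatP O := by
  constructor
  · intro n
    obtain ⟨q, hq⟩ := h (2 * n)
    refine ⟨q, ?_⟩
    rw [← hq, coeff_add, coeff_expand_mul' (by norm_num : 0 < 2)]
    rcases Nat.eq_zero_or_pos n with hn | hn
    · subst hn
      simp
    · obtain ⟨n', rfl⟩ : ∃ n', n = n' + 1 := ⟨n - 1, by omega⟩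
      have e : 2 * (n' + 1) = (2 * n' + 1) + 1 := by ring
      rw [e, coeff_X_mul, coeff_expand (by norm_num : 0 < 2)]
      have hnd : ¬ (2 ∣ 2 * n' + 1) := by omega
      rw [if_neg hnd, add_zero]
  · intro n
    obtain ⟨q, hq⟩ := h (2 * n + 1)
    refine ⟨q, ?_⟩
    rw [← hq, coeff_add, coeff_X_mul, coeff_expand_mul' (by norm_num : 0 < 2),
      coeff_expand (by norm_num : 0 < 2)]
    have hnd : ¬ (2 ∣ 2 * n + 1) := by omega
    rw [if_neg hnd, zero_add]

theorem scone_one_of_list (L : List ℝ) (hL : L ≠ []) (h01 : ∀ m ∈ L, 0 < m ∧ m < 1) (mu : ℝ)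
    (hmu : mu ∈ L) (hrat : RatP (L.map (fun m => C (1 - m) * X + C m)).prod) :
    SCone (mu / (1 - mu)) 1 := by
  obtain ⟨k, l, E, O, hkl, hIP, hexp⟩ := gt9_parts L hL h01
  have hm := h01 mu hmu
  have h1m : 0 < 1 - mu := by linarith [hm.2]
  have hth : 0 < mu / (1 - mu) := div_pos hm.1 h1m
  have hratEO := gt9_rat E O (by rw [hexp]; exact hrat)
  have hev : ((L.map (fun m => C (1 - m) * X + C m)).prod).eval (-(mu / (1 - mu))) = 0 := by
    rw [eval_list_prod]
    apply List.prod_eq_zero
    rw [List.mem_map]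
    refine ⟨C (1 - mu) * X + C mu, List.mem_map.mpr ⟨mu, hmu, rfl⟩, ?_⟩
    simp only [eval_add, eval_mul, eval_C, eval_X]
    field_simp
    ring
  have hEO : E.eval ((mu / (1 - mu)) ^ 2)
      = mu / (1 - mu) * O.eval ((mu / (1 - mu)) ^ 2) := by
    have h2 := congrArg (eval (-(mu / (1 - mu)))) hexp
    rw [hev] at h2
    simp only [eval_add, eval_mul, eval_X, expand_eval] at h2
    have e : (-(mu / (1 - mu))) ^ 2 = (mu / (1 - mu)) ^ 2 := by ring
    rw [e] at h2
    linarith
  have hlk : l ≤ k := by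
    rcases hkl with h | h
    · exact le_of_eq h
    · omega
  have hpos := ip_eval_pos hIP hlk ((mu / (1 - mu)) ^ 2) (by positivity)
  rcases hkl with h | h
  · rw [h] at hIP
    have h3 := cf_even (mu / (1 - mu)) hth k E O hIP hratEO.1 hratEO.2
    have e1 : mu / (1 - mu) * O.eval ((mu / (1 - mu)) ^ 2) / E.eval ((mu / (1 - mu)) ^ 2)
        = 1 := by
      rw [← hEO]
      exact div_self (ne_of_gt hpos.1)
    rwa [e1] at h3
  · rw [h] at hIP
    have h3 := cf_odd (mu / (1 - mu)) hth l E O hIP hratEO.1 hratEO.2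
    have e1 : E.eval ((mu / (1 - mu)) ^ 2) / (mu / (1 - mu) * O.eval ((mu / (1 - mu)) ^ 2))
        = 1 := by
      rw [← hEO]
      exact div_self (ne_of_gt hpos.1)
    rwa [e1] at h3

end Vale.Agent.H80.GT
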