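import Vale.Agent.H80.GT.Inter
import Vale.Agent.H80.GT.Root

/-!
# The Euclidean step for an interlacing pair of shape `(k + 1, k + 1)` (support for P058)

TASK GT-5.  Prove `ip_euclid_even` (keep the statement EXACTLY; helper lemmas with fresh names
starting `gt5_` inside this file).  Black boxes (may still be open): `prod_sign`, `seq_order`,
`ip_natDegree`, `ip_leadingCoeff_pos` (GT/Inter.lean), `root_location` (GT/Root.lean).

Let `P = C a * ∏_{j<k+1} (X + C (α j))`, `Q = C b * ∏_{j<k+1} (X + C (β j))` be the data of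
`IP (k + 1) (k + 1) P Q` (`0 < α 0 < β 0 < α 1 < ... < α k < β k`); `P.leadingCoeff = a`,
`Q.leadingCoeff = b`, `c := b / a > 0`, `R := Q - C c * P`.

1. `R.natDegree ≤ k`: `Q` and `C c * P` have degree `k + 1` and the same leading coefficient.
2. Values: for `i < k + 1`, `P.eval (-α i) = 0`, so
   `R.eval (-α i) = Q.eval (-α i) = b * ∏_{j<k+1} (β j - α i)`, where `β j - α i < 0` for
   `j < i` and `> 0` for `i ≤ j` (`seq_order` with `k + 1`, `k + 1`); by `prod_sign` (with `i`
   negative factors) `0 < (-1) ^ i * R.eval (-α i)`.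
3. Apply `root_location R k s r (-α 0)` with `r j = -α j`, `s j = -α (j + 1)`:
   `s j < r j` (`α` increasing), `r (j + 1) = s j`, signs by step 2, `r j ≤ -α 0`,
   `0 < R.eval (-α 0)` (step 2 with `i = 0`).
4. This gives `c' > 0` and `ρ` with `-α (j + 1) < ρ j < -α j`, `R = C c' * ∏_{j<k} (X - C (ρ j))`.
   Put `β' j := -ρ j`: `α j < β' j < α (j + 1)` for `j < k`.  So `IP (k + 1) k P R` holds with
   the data `(a, c', α, β')`.
-/

namespace Vale.Agent.H80.GT

open Polynomial

/-- Euclidean step, shape `(k + 1, k + 1)`: subtracting `c P` from `Q` (with `c` the quotient of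
the leading coefficients, which is positive) gives an interlacing pair of shape `(k + 1, k)`. -/
theorem ip_euclid_even (k : ℕ) (P Q : ℝ[X]) (h : IP (k + 1) (k + 1) P Q) :
    0 < Q.leadingCoeff / P.leadingCoeff ∧
      IP (k + 1) k P (Q - C (Q.leadingCoeff / P.leadingCoeff) * P) := by
  obtain ⟨hPlc, hQlc⟩ := ip_leadingCoeff_pos h
  obtain ⟨hPdeg, hQdeg⟩ := ip_natDegree h
  have hc : 0 < Q.leadingCoeff / P.leadingCoeff := div_pos hQlc hPlc
  refine ⟨hc, ?_⟩
  obtain ⟨a, b, α, β, ha, hb, hα, h1, h2, hP, hQ⟩ := h
  obtain ⟨o1, o2, o3, _⟩ := seq_order (k + 1) (k + 1) (by omega) le_rfl α β h1 h2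
  -- degree of the remainder
  have hRdeg : (Q - C (Q.leadingCoeff / P.leadingCoeff) * P).natDegree ≤ k := by
    rw [Polynomial.natDegree_le_iff_coeff_eq_zero]
    intro N hN
    rw [coeff_sub, coeff_C_mul]
    rcases Nat.lt_or_ge (k + 1) N with hN' | hN'
    · rw [coeff_eq_zero_of_natDegree_lt (by omega), coeff_eq_zero_of_natDegree_lt (by omega)]
      simp
    · have hNe : N = k + 1 := by omega
      subst hNe
      have e1 : Q.coeff (k + 1) = Q.leadingCoeff := by rw [leadingCoeff, hQdeg]
      have e2 : P.coeff (k + 1) = P.leadingCoeff := by rw [leadingCoeff, hPdeg]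
      rw [e1, e2]
      field_simp
      ring
  -- values at the roots of `P`
  have hPval : ∀ i, i < k + 1 → P.eval (-α i) = 0 := by
    intro i hi
    rw [hP, eval_mul, eval_prod, Finset.prod_eq_zero (Finset.mem_range.mpr hi) (by simp)]
    simp
  have hQval : ∀ x, Q.eval x = b * ∏ j ∈ Finset.range (k + 1), (β j + x) := by
    intro x
    rw [hQ, eval_mul, eval_C, eval_prod]
    congr 1
    apply Finset.prod_congr rfl
    intro j _
    simp [add_comm]
  have hsign : ∀ i, i < k + 1 →
      0 < (-1 : ℝ) ^ i * (Q - C (Q.leadingCoeff / P.leadingCoeff) * P).eval (-α i) := by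
    intro i hi
    have hRv : (Q - C (Q.leadingCoeff / P.leadingCoeff) * P).eval (-α i) =
        b * ∏ j ∈ Finset.range (k + 1), (β j + -α i) := by
      rw [eval_sub, eval_mul, hPval i hi, hQval]
      simp
    rw [hRv]
    have hps := prod_sign (k + 1) (fun j => β j + -α i) i hi.le
      (fun j hj => by have := o2 j i hj hi; linarith)
      (fun j hij hj => by have := o1 j i hij hj; linarith)
    have e : (-1 : ℝ) ^ i * (b * ∏ j ∈ Finset.range (k + 1), (β j + -α i)) =
        b * ((-1 : ℝ) ^ i * ∏ j ∈ Finset.range (k + 1), (β j + -α i)) := by ring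
    rw [e]
    exact mul_pos hb hps
  obtain ⟨c', ρ, hc', hρ, hRfac⟩ :=
    root_location (Q - C (Q.leadingCoeff / P.leadingCoeff) * P) k (fun j => -α (j + 1))
      (fun j => -α j) (-α 0) hRdeg
      (fun j hj => by
        have := o3 j (j + 1) (Nat.lt_succ_self j) (by omega)
        linarith)
      (fun j _ => le_rfl)
      (fun j hj => hsign j (by omega))
      (fun j hj => by
        have := hsign (j + 1) (by omega)
        rw [pow_succ] at this
        linarith)
      (fun j hj => by
        rcases Nat.eq_zero_or_pos j with rfl | hj0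
        · exact le_rfl
        · have := o3 0 j hj0 (by omega)
          linarith)
      (by
        have := hsign 0 (by omega)
        simpa using this)
  refine ⟨a, c', α, fun j => -ρ j, ha, hc', hα, ?_, ?_, hP, ?_⟩
  · intro j _ hj
    have := (hρ j hj).2
    simp only at this ⊢
    linarith
  · intro j _ hj
    have := (hρ j hj).1
    simp only at this ⊢
    linarith
  · rw [hRfac]
    congr 1
    apply Finset.prod_congr rfl
    intro j _
    simp [sub_eq_add_neg]

end Vale.Agent.H80.GT
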