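import Vale.Agent.H80.GT.Inter
import Vale.Agent.H80.GT.Root

/-!
# The Euclidean step for an interlacing pair of shape `(l + 1, l)` (support for P058)

TASK GT-4.  Prove `ip_euclid_odd` (keep the statement EXACTLY; helper lemmas with fresh names
starting `gt4_` inside this file).  Black boxes (may still be open): `prod_sign`, `seq_order`,
`ip_natDegree`, `ip_leadingCoeff_pos` (GT/Inter.lean), `root_location` (GT/Root.lean).

Let `P = C a * ∏_{j<l+1} (X + C (α j))`, `Q = C b * ∏_{j<l} (X + C (β j))` be the data of
`IP (l + 1) l P Q` (`0 < α 0 < β 0 < α 1 < ... < β (l-1) < α l`); `P.leadingCoeff = a`,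
`Q.leadingCoeff = b` (monic products), `c := a / b > 0`, `R := P - C c * X * Q`.

1. `R.natDegree ≤ l`: `P` and `C c * X * Q` have degree `l + 1` and the same leading
   coefficient `a = c * b` (`Polynomial.natDegree_sub_lt` / `degree_sub_lt`, or compare the
   coefficient of `X ^ (l + 1)` and use `natDegree_sub_le`, `natDegree_lt_iff_degree_lt`).
2. Values: `R.eval 0 = P.eval 0 = a * ∏ α j > 0`; for `i < l`, `Q.eval (-β i) = 0` (a factor
   vanishes), so `R.eval (-β i) = P.eval (-β i) = a * ∏_{j<l+1} (α j - β i)`, where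
   `α j - β i < 0` for `j ≤ i` and `> 0` for `i < j` (`seq_order` with `k = l + 1`); by
   `prod_sign` (with `i + 1` negative factors) `0 < (-1) ^ (i + 1) * R.eval (-β i)`.
3. Apply `root_location R l s r 0` with `r 0 = 0`, `r (j + 1) = -β j`, `s j = -β j`
   (define `r j := if j = 0 then 0 else -β (j - 1)` or by `Nat.rec`): `s j < r j` as
   `β` is positive and increasing, `r (j + 1) = s j`, the sign conditions are step 2
   (`(-1) ^ j * R.eval (s j) < 0` follows from `0 < (-1) ^ (j + 1) * R.eval (-β j)` by
   `pow_succ`), `x₀ = 0`.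
4. This gives `c' > 0` and `ρ` with `-β j < ρ j < r j` and
   `R = C c' * ∏_{j<l} (X - C (ρ j))`.  Put `α' j := -ρ j`:
   `X - C (ρ j) = X + C (α' j)`, `0 < α' 0 < β 0`, `β (j - 1) < α' j < β j` for `1 ≤ j < l`.
   So `IP l l R Q` holds with the data `(c', b, α', β)`.
-/

namespace Vale.Agent.H80.GT

open Polynomial

/-- Degree drop: subtracting `C c * X * Q` with `c` the quotient of the leading coefficients. -/
theorem gt4_natDegree_le (l : ℕ) (P Q : ℝ[X]) (hPd : P.natDegree = l + 1) (hQd : Q.natDegree = l)
    (hPl : 0 < P.leadingCoeff) (hQl : 0 < Q.leadingCoeff) :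
    (P - C (P.leadingCoeff / Q.leadingCoeff) * X * Q).natDegree ≤ l := by
  have hc : 0 < P.leadingCoeff / Q.leadingCoeff := div_pos hPl hQl
  have hP0 : P ≠ 0 := by
    intro h0
    rw [h0] at hPl
    simp at hPl
  have hQ0 : Q ≠ 0 := by
    intro h0
    rw [h0] at hQl
    simp at hQl
  have hCX0 : C (P.leadingCoeff / Q.leadingCoeff) * X ≠ 0 := by
    intro h0
    have := congrArg natDegree h0
    rw [natDegree_C_mul_X _ hc.ne'] at this
    simp at this
  have hS0 : C (P.leadingCoeff / Q.leadingCoeff) * X * Q ≠ 0 := mul_ne_zero hCX0 hQ0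
  have hSd : (C (P.leadingCoeff / Q.leadingCoeff) * X * Q).natDegree = l + 1 := by
    rw [natDegree_mul hCX0 hQ0, natDegree_C_mul_X _ hc.ne', hQd]
    omega
  have hSl : (C (P.leadingCoeff / Q.leadingCoeff) * X * Q).leadingCoeff = P.leadingCoeff := by
    rw [leadingCoeff_mul, leadingCoeff_mul, leadingCoeff_C, leadingCoeff_X, mul_one]
    field_simp
  by_cases hR0 : P - C (P.leadingCoeff / Q.leadingCoeff) * X * Q = 0
  · rw [hR0]
    simp
  · have hlt : (P - C (P.leadingCoeff / Q.leadingCoeff) * X * Q).degree < P.degree := by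
      apply degree_sub_lt_left _ hP0 hSl.symm
      rw [degree_eq_natDegree hP0, degree_eq_natDegree hS0, hPd, hSd]
    have := natDegree_lt_natDegree hR0 hlt
    omega

/-- Euclidean step, shape `(l + 1, l)`: subtracting `c X Q` from `P` (with `c` the quotient of
the leading coefficients, which is positive) gives an interlacing pair of shape `(l, l)`. -/
theorem ip_euclid_odd (l : ℕ) (P Q : ℝ[X]) (h : IP (l + 1) l P Q) :
    0 < P.leadingCoeff / Q.leadingCoeff ∧
      IP l l (P - C (P.leadingCoeff / Q.leadingCoeff) * X * Q) Q := by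
  have hdeg := ip_natDegree h
  have hlc := ip_leadingCoeff_pos h
  obtain ⟨a, b, α, β, ha, hb, hα, h1, h2, hP, hQ⟩ := h
  have hc : 0 < P.leadingCoeff / Q.leadingCoeff := div_pos hlc.1 hlc.2
  refine ⟨hc, ?_⟩
  obtain ⟨o1, o2, o3, o4⟩ := seq_order (l + 1) l le_rfl (Nat.le_succ l) α β h1 h2
  have hβpos : ∀ j, j < l → 0 < β j := fun j hj =>
    lt_trans (hα j (by omega)) (h1 j (by omega) hj)
  have hRdeg := gt4_natDegree_le l P Q hdeg.1 hdeg.2 hlc.1 hlc.2
  generalize hcdef : P.leadingCoeff / Q.leadingCoeff = c at hc hRdeg ⊢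
  have hPev : ∀ x : ℝ, P.eval x = a * ∏ j ∈ Finset.range (l + 1), (x + α j) := by
    intro x
    rw [hP]
    simp [eval_mul, eval_prod]
  have hQev : ∀ x : ℝ, Q.eval x = b * ∏ j ∈ Finset.range l, (x + β j) := by
    intro x
    rw [hQ]
    simp [eval_mul, eval_prod]
  have hR0 : 0 < (P - C c * X * Q).eval 0 := by
    have e : (P - C c * X * Q).eval 0 = P.eval 0 := by simp
    rw [e, hPev]
    apply mul_pos ha
    apply Finset.prod_pos
    intro j hj
    have := hα j (Finset.mem_range.mp hj)
    linarith
  have hRβ : ∀ i, i < l → 0 < (-1 : ℝ) ^ (i + 1) * (P - C c * X * Q).eval (-β i) := by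
    intro i hi
    have hQ0 : Q.eval (-β i) = 0 := by
      rw [hQev]
      have : ∏ j ∈ Finset.range l, (-β i + β j) = 0 :=
        Finset.prod_eq_zero (Finset.mem_range.mpr hi) (by ring)
      rw [this, mul_zero]
    have e : (P - C c * X * Q).eval (-β i) = P.eval (-β i) := by
      simp [hQ0]
    rw [e, hPev]
    have hs := prod_sign (l + 1) (fun j => -β i + α j) (i + 1) (by omega)
      (fun j hj => by
        have := o1 i j (by omega) hi
        linarith)
      (fun j hj1 hj2 => by
        have := o2 i j (by omega) hj2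
        linarith)
    have e2 : (-1 : ℝ) ^ (i + 1) * (a * ∏ j ∈ Finset.range (l + 1), (-β i + α j))
        = a * ((-1 : ℝ) ^ (i + 1) * ∏ j ∈ Finset.range (l + 1), (-β i + α j)) := by ring
    rw [e2]
    exact mul_pos ha hs
  obtain ⟨c', ρ, hc', hρ, hRfact⟩ := root_location (P - C c * X * Q) l (fun j => -β j)
    (fun j => if j = 0 then 0 else -β (j - 1)) 0 hRdeg
    (by
      intro j hj
      by_cases hj0 : j = 0
      · subst hj0
        simp only [if_true]
        have := hβpos 0 hj
        linarith
      · simp only [hj0, if_false]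
        have := o4 (j - 1) j (by omega) hj
        linarith)
    (by
      intro j hj
      simp)
    (by
      intro j hj
      by_cases hj0 : j = 0
      · subst hj0
        simpa using hR0
      · simp only [hj0, if_false]
        obtain ⟨i, rfl⟩ : ∃ i, j = i + 1 := ⟨j - 1, by omega⟩
        have := hRβ i (by omega)
        simpa using this)
    (by
      intro j hj
      have := hRβ j hj
      rw [pow_succ] at this
      have e : (-1 : ℝ) ^ j * -1 * (P - C c * X * Q).eval (-β j)
          = -((-1 : ℝ) ^ j * (P - C c * X * Q).eval (-β j)) := by ring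
      rw [e] at this
      linarith)
    (by
      intro j hj
      by_cases hj0 : j = 0
      · simp [hj0]
      · simp only [hj0, if_false]
        have := hβpos (j - 1) (by omega)
        linarith)
    hR0
  refine ⟨c', b, fun j => -ρ j, β, hc', hb, ?_, ?_, ?_, ?_, hQ⟩
  · intro j hj
    have h2' := (hρ j hj).2
    by_cases hj0 : j = 0
    · subst hj0
      simp only [if_true] at h2'
      linarith
    · simp only [hj0, if_false] at h2'
      have := hβpos (j - 1) (by omega)
      linarith
  · intro j hj _
    have := (hρ j hj).1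
    linarith
  · intro j hj _
    have h2' := (hρ (j + 1) hj).2
    simp only [Nat.add_one_ne_zero, if_false, Nat.add_sub_cancel] at h2'
    linarith
  · rw [hRfact]
    congr 1
    apply Finset.prod_congr rfl
    intro j _
    simp [sub_eq_add_neg]

end Vale.Agent.H80.GT
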