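import Vale.Agent.H80.GT.Cone
import Vale.Agent.H80.GT.EOdd
import Vale.Agent.H80.GT.EEven

/-!
# The continued fraction of an interlacing pair lies in the cone (support for P058)

For `th > 0`, `u = th ^ 2` and an interlacing pair `(P, Q)` with rational coefficients:
shape `(k, k)`: `th * Q(u) / P(u) ∈ SCone th`; shape `(l + 1, l)`: `P(u) / (th * Q(u)) ∈ SCone th`.

TASK GT-8.  Prove `cf_even` and `cf_odd` (keep the statements EXACTLY; helper lemmas with fresh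
names starting `gt8_` inside this file).  Black boxes (may still be open): `ip_euclid_odd`
(GT/EOdd.lean), `ip_euclid_even` (GT/EEven.lean), `ip_eval_pos`, `ip_natDegree`,
`ip_leadingCoeff_pos` (GT/Inter.lean); `SCone` with its constructors `SCone.base`, `SCone.add`,
`SCone.smul`, `SCone.inv` is in GT/Cone.lean.

Prove `∀ k, A k ∧ B k` by induction on `k` (helper `gt8_both`), where `A k` is the statement of
`cf_even` for `k` and `B k` the statement of `cf_odd` for `l = k`.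

* Rational leading coefficients: if `RatP P` then `P.leadingCoeff = P.coeff P.natDegree` is the
  cast of a rational; the quotient of two such is the cast of a rational `c`, positive if the
  real quotient is positive (`Rat.cast_pos`, `Rat.cast_div`).
* `RatP` is stable under the two steps: `RatP (P - C (c : ℝ) * X * Q)` and
  `RatP (Q - C (c : ℝ) * P)` for rational `c` (`coeff_sub`, `coeff_C_mul`, `coeff_X_mul`
  resp. `mul_assoc` and `coeff_C_mul`, `coeff_X_mul'` / cases on `n`; sums, products and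
  differences of rational casts are rational casts: `Rat.cast_sub`, `Rat.cast_mul`).
* `A 0`: `IP 0 0 P Q` means `P = C a`, `Q = C b` (empty products) with `a, b > 0`, rational by
  `RatP` (coefficient `0`); the value is `th * b / a = (b / a) * th`: `SCone.smul` of
  `SCone.base`.
* `B k` from `A k`: let `c = P.leadingCoeff / Q.leadingCoeff > 0` (rational) and
  `P₁ = P - C c * X * Q`, `IP k k P₁ Q` (`ip_euclid_odd`).  With `u = th ^ 2`:
  `P(u) = c * u * Q(u) + P₁(u)`, so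
  `P(u) / (th * Q(u)) = c * th + 1 / (th * Q(u) / P₁(u))` (`P₁(u), Q(u) > 0` by `ip_eval_pos`):
  `SCone.add (SCone.smul c _ SCone.base) (SCone.inv (A k ...))`, rewritten with `field_simp`.
* `A (k + 1)` from `B k`: let `c = Q.leadingCoeff / P.leadingCoeff > 0` and `Q₁ = Q - C c * P`,
  `IP (k + 1) k P Q₁` (`ip_euclid_even`).  `Q(u) = c * P(u) + Q₁(u)`, so
  `th * Q(u) / P(u) = c * th + 1 / (P(u) / (th * Q₁(u)))`.
-/

namespace Vale.Agent.H80.GT

open Polynomial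

theorem gt8_lc_rat {P : ℝ[X]} (hP : RatP P) : ∃ q : ℚ, P.leadingCoeff = (q : ℝ) := by
  obtain ⟨q, hq⟩ := hP P.natDegree
  exact ⟨q, by rw [← Polynomial.coeff_natDegree]; exact hq⟩

theorem gt8_quot_rat {a b : ℝ} (ha : ∃ q : ℚ, a = (q : ℝ)) (hb : ∃ q : ℚ, b = (q : ℝ))
    (h : 0 < a / b) : ∃ c : ℚ, 0 < c ∧ a / b = (c : ℝ) := by
  obtain ⟨qa, rfl⟩ := ha
  obtain ⟨qb, rfl⟩ := hb
  refine ⟨qa / qb, ?_, ?_⟩
  · have h2 : ((0 : ℚ) : ℝ) < ((qa / qb : ℚ) : ℝ) := by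
      rw [Rat.cast_div, Rat.cast_zero]
      exact h
    exact_mod_cast h2
  · rw [Rat.cast_div]

theorem gt8_ratP_sub_X {P Q : ℝ[X]} (hP : RatP P) (hQ : RatP Q) (c : ℚ) :
    RatP (P - C (c : ℝ) * X * Q) := by
  intro n
  obtain ⟨p, hp⟩ := hP n
  rw [coeff_sub, mul_assoc, coeff_C_mul]
  cases n with
  | zero =>
    refine ⟨p, ?_⟩
    rw [coeff_X_mul_zero, mul_zero, sub_zero, hp]
  | succ m =>
    obtain ⟨q, hq⟩ := hQ m
    refine ⟨p - c * q, ?_⟩
    rw [coeff_X_mul, hp, hq, Rat.cast_sub, Rat.cast_mul]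

theorem gt8_ratP_sub {P Q : ℝ[X]} (hP : RatP P) (hQ : RatP Q) (c : ℚ) :
    RatP (Q - C (c : ℝ) * P) := by
  intro n
  obtain ⟨p, hp⟩ := hP n
  obtain ⟨q, hq⟩ := hQ n
  refine ⟨q - c * p, ?_⟩
  rw [coeff_sub, coeff_C_mul, hp, hq, Rat.cast_sub, Rat.cast_mul]

theorem gt8_step_odd (th : ℝ) (hth : 0 < th) (k : ℕ)
    (hA : ∀ P Q : ℝ[X], IP k k P Q → RatP P → RatP Q →
      SCone th (th * Q.eval (th ^ 2) / P.eval (th ^ 2)))
    (P Q : ℝ[X]) (h : IP (k + 1) k P Q) (hP : RatP P) (hQ : RatP Q) :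
    SCone th (P.eval (th ^ 2) / (th * Q.eval (th ^ 2))) := by
  have hu : (0 : ℝ) < th ^ 2 := by positivity
  obtain ⟨hc, hIP⟩ := ip_euclid_odd k P Q h
  obtain ⟨c, hc0, hce⟩ := gt8_quot_rat (gt8_lc_rat hP) (gt8_lc_rat hQ) hc
  rw [hce] at hIP
  have hP1 : RatP (P - C (c : ℝ) * X * Q) := gt8_ratP_sub_X hP hQ c
  have hS := hA _ _ hIP hP1 hQ
  obtain ⟨hp1, hq⟩ := ip_eval_pos hIP le_rfl (th ^ 2) hu
  have hev : (P - C (c : ℝ) * X * Q).eval (th ^ 2)
      = P.eval (th ^ 2) - (c : ℝ) * th ^ 2 * Q.eval (th ^ 2) := by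
    simp [eval_sub, eval_mul]
  rw [hev] at hS hp1
  have hfin := SCone.add (SCone.smul c hc0 (SCone.base (th := th))) (SCone.inv hS)
  have hth' : th ≠ 0 := hth.ne'
  have hq' : Q.eval (th ^ 2) ≠ 0 := hq.ne'
  have hp1' : P.eval (th ^ 2) - (c : ℝ) * th ^ 2 * Q.eval (th ^ 2) ≠ 0 := hp1.ne'
  have e : (c : ℝ) * th + 1 / (th * Q.eval (th ^ 2)
      / (P.eval (th ^ 2) - (c : ℝ) * th ^ 2 * Q.eval (th ^ 2)))
      = P.eval (th ^ 2) / (th * Q.eval (th ^ 2)) := by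
    field_simp
    ring
  rw [e] at hfin
  exact hfin

theorem gt8_step_even (th : ℝ) (hth : 0 < th) (k : ℕ)
    (hB : ∀ P Q : ℝ[X], IP (k + 1) k P Q → RatP P → RatP Q →
      SCone th (P.eval (th ^ 2) / (th * Q.eval (th ^ 2))))
    (P Q : ℝ[X]) (h : IP (k + 1) (k + 1) P Q) (hP : RatP P) (hQ : RatP Q) :
    SCone th (th * Q.eval (th ^ 2) / P.eval (th ^ 2)) := by
  have hu : (0 : ℝ) < th ^ 2 := by positivity
  obtain ⟨hc, hIP⟩ := ip_euclid_even k P Q h
  obtain ⟨c, hc0, hce⟩ := gt8_quot_rat (gt8_lc_rat hQ) (gt8_lc_rat hP) hc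
  rw [hce] at hIP
  have hQ1 : RatP (Q - C (c : ℝ) * P) := gt8_ratP_sub hP hQ c
  have hS := hB _ _ hIP hP hQ1
  obtain ⟨hp, hq1⟩ := ip_eval_pos hIP (Nat.le_succ k) (th ^ 2) hu
  have hev : (Q - C (c : ℝ) * P).eval (th ^ 2)
      = Q.eval (th ^ 2) - (c : ℝ) * P.eval (th ^ 2) := by
    simp [eval_sub, eval_mul]
  rw [hev] at hS hq1
  have hfin := SCone.add (SCone.smul c hc0 (SCone.base (th := th))) (SCone.inv hS)
  have hth' : th ≠ 0 := hth.ne'
  have hp' : P.eval (th ^ 2) ≠ 0 := hp.ne'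
  have hq1' : Q.eval (th ^ 2) - (c : ℝ) * P.eval (th ^ 2) ≠ 0 := hq1.ne'
  have e : (c : ℝ) * th + 1 / (P.eval (th ^ 2)
      / (th * (Q.eval (th ^ 2) - (c : ℝ) * P.eval (th ^ 2))))
      = th * Q.eval (th ^ 2) / P.eval (th ^ 2) := by
    field_simp
    ring
  rw [e] at hfin
  exact hfin

theorem gt8_base (th : ℝ) (P Q : ℝ[X]) (h : IP 0 0 P Q) (hP : RatP P) (hQ : RatP Q) :
    SCone th (th * Q.eval (th ^ 2) / P.eval (th ^ 2)) := by
  obtain ⟨a, b, α, β, ha, hb, -, -, -, rfl, rfl⟩ := h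
  obtain ⟨qa, hqa⟩ := hP 0
  obtain ⟨qb, hqb⟩ := hQ 0
  simp only [Finset.range_zero, Finset.prod_empty, mul_one, coeff_C_zero] at hqa hqb
  simp only [Finset.range_zero, Finset.prod_empty, mul_one, eval_C]
  have hqa0 : 0 < qa := by
    have h2 : ((0 : ℚ) : ℝ) < (qa : ℝ) := by
      rw [← hqa, Rat.cast_zero]
      exact ha
    exact_mod_cast h2
  have hqb0 : 0 < qb := by
    have h2 : ((0 : ℚ) : ℝ) < (qb : ℝ) := by
      rw [← hqb, Rat.cast_zero]
      exact hb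
    exact_mod_cast h2
  have hfin := SCone.smul (qb / qa) (div_pos hqb0 hqa0) (SCone.base (th := th))
  have e : ((qb / qa : ℚ) : ℝ) * th = th * b / a := by
    rw [Rat.cast_div, ← hqa, ← hqb]
    ring
  rw [e] at hfin
  exact hfin

theorem gt8_both (th : ℝ) (hth : 0 < th) (k : ℕ) :
    (∀ P Q : ℝ[X], IP k k P Q → RatP P → RatP Q →
        SCone th (th * Q.eval (th ^ 2) / P.eval (th ^ 2))) ∧
    (∀ P Q : ℝ[X], IP (k + 1) k P Q → RatP P → RatP Q →
        SCone th (P.eval (th ^ 2) / (th * Q.eval (th ^ 2)))) := by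
  induction k with
  | zero =>
    have hA0 : ∀ P Q : ℝ[X], IP 0 0 P Q → RatP P → RatP Q →
        SCone th (th * Q.eval (th ^ 2) / P.eval (th ^ 2)) :=
      fun P Q h hP hQ => gt8_base th P Q h hP hQ
    exact ⟨hA0, gt8_step_odd th hth 0 hA0⟩
  | succ k ih =>
    have hA : ∀ P Q : ℝ[X], IP (k + 1) (k + 1) P Q → RatP P → RatP Q →
        SCone th (th * Q.eval (th ^ 2) / P.eval (th ^ 2)) :=
      gt8_step_even th hth k ih.2
    exact ⟨hA, gt8_step_odd th hth (k + 1) hA⟩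

theorem cf_even (th : ℝ) (hth : 0 < th) (k : ℕ) (P Q : ℝ[X]) (h : IP k k P Q) (hP : RatP P)
    (hQ : RatP Q) : SCone th (th * Q.eval (th ^ 2) / P.eval (th ^ 2)) :=
  (gt8_both th hth k).1 P Q h hP hQ

theorem cf_odd (th : ℝ) (hth : 0 < th) (l : ℕ) (P Q : ℝ[X]) (h : IP (l + 1) l P Q) (hP : RatP P)
    (hQ : RatP Q) : SCone th (P.eval (th ^ 2) / (th * Q.eval (th ^ 2))) :=
  (gt8_both th hth l).2 P Q h hP hQ

end Vale.Agent.H80.GT
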