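import Vale.Agent.H3.GW.Reach

/-!
# The cone generated by `th` under sums, positive rational multiples and inverses
(support for P058)

`SCone th w`: the real number `w` is obtained from `th` by sums, multiplication by positive
rationals and `w ↦ 1 / w`.  For `th = mu / (1 - mu)` every such `w` is reachable in the sense of
Vale/Agent/H3/GW/Reach.lean; if `1` is obtained, there is a weighted single-kink structure with
kink value `0` for the weight `mu`.
-/

namespace Vale.Agent.H80.GT

open Vale.Agent.H16.Kite Vale.Agent.H3.GW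

/-- The set of reals obtained from `th` by sums, positive rational multiples and inverses. -/
inductive SCone (th : ℝ) : ℝ → Prop
  | base : SCone th th
  | add {u v : ℝ} : SCone th u → SCone th v → SCone th (u + v)
  | smul {u : ℝ} (q : ℚ) : 0 < q → SCone th u → SCone th ((q : ℝ) * u)
  | inv {u : ℝ} : SCone th u → SCone th (1 / u)

theorem scone_pos {th : ℝ} (hth : 0 < th) {w : ℝ} (h : SCone th w) : 0 < w := by
  induction h with
  | base => exact hth
  | add _ _ ih1 ih2 => linarith
  | smul q hq _ ih =>
    have hq' : (0 : ℝ) < (q : ℝ) := by exact_mod_cast hq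
    exact mul_pos hq' ih
  | inv _ ih => positivity

theorem reach_of_scone {mu : ℝ} (hm0 : 0 < mu) (hm1 : mu < 1) {w : ℝ}
    (h : SCone (mu / (1 - mu)) w) : Reach mu w := by
  have hth : 0 < mu / (1 - mu) := div_pos hm0 (by linarith)
  induction h with
  | base => exact reach_th hm1
  | add h1 h2 ih1 ih2 => exact reach_add (scone_pos hth h1).le (scone_pos hth h2).le ih1 ih2
  | smul q hq h1 ih => exact reach_qsmul (scone_pos hth h1) ih q hq
  | inv h1 ih => exact reach_inv (scone_pos hth h1) ih

/-- If `1` lies in the cone of `mu / (1 - mu)`, the weight `mu` has a gadget. -/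
theorem wach_zero_of_scone_one {mu : ℝ} (hm0 : 0 < mu) (hm1 : mu < 1)
    (h : SCone (mu / (1 - mu)) 1) : ∃ p : ℝ, WAch mu 0 p := by
  have r5 := reach_of_scone hm0 hm1 h
  have h6 := r5 ∅ (wbase_empty mu)
  obtain ⟨p, hp⟩ := wach_of_wbase h6 (Finset.mem_insert_self _ _)
  have e0 : ((1 : ℝ) - 1) / (1 + 1) = 0 := by norm_num
  rw [e0] at hp
  exact ⟨p, hp⟩

end Vale.Agent.H80.GT
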