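import Vale.Agent.H80.GT.Inter

/-!
# The conjugates of a totally real number in `(0, 1)` (support for P058)

Let `mu` be a real algebraic number all of whose conjugates (the complex roots of its minimal
polynomial over `ℚ`) are real and lie in `(0, 1)`.  Then there is a nonempty list `L` of reals in
`(0, 1)` containing `mu` such that `∏_{m ∈ L} ((1 - m) X + m)` has rational coefficients.

TASK GT-10.  Prove `exists_list_of_totally_real` (keep the statement EXACTLY; helper lemmas with
fresh names starting `gt10_` inside this file; `RatP` is defined in GT/Inter.lean).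

Let `f = minpoly ℚ mu` (monic, `r = f.natDegree ≥ 1`), `fR = f.map (algebraMap ℚ ℝ)`,
`fC = f.map (algebraMap ℚ ℂ)`.

1. `fC` splits (`IsAlgClosed.splits`), so `fC = ∏_{z ∈ fC.roots} (X - C z)`
   (`Polynomial.Splits.eq_prod_roots` / `prod_multiset_X_sub_C_of_monic_of_roots_card_eq`,
   `fC` monic), and every root `z` satisfies `aeval z f = 0` (`Polynomial.mem_roots`,
   `eval_map`, `aeval_def`), so by `hconj` `z = ((z.re : ℝ) : ℂ)` with `0 < z.re < 1`.
   Let `L := (fC.roots.map Complex.re).toList`.  Then
   `(∏_{m ∈ L} (X - C m)).map Complex.ofRealHom = fC = fR.map Complex.ofRealHom`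
   (`Polynomial.map_map`, `Polynomial.map_multiset_prod`/`map_list_prod`), and
   `Polynomial.map_injective _ Complex.ofReal_injective` gives
   `fR = (L.map (fun m => X - C m)).prod`.  `L ≠ []` because `fR` is not constant
   (`minpoly.natDegree_pos`), `mu ∈ L` because `fR.eval mu = 0` (`minpoly.aeval`) and a product
   of `mu - m` vanishes only if some factor does (`eval_list_prod`, `List.prod_eq_zero_iff`).
   [Alternatively work with `fR.roots` directly after proving that `fR` splits over `ℝ`.]
2. Rational coefficients.  Let `G : ℚ[X] := ∑ j ∈ Finset.range (r + 1),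
   C (f.coeff j) * X ^ j * (X - 1) ^ (r - j)` and `H := (L.map (fun m => C (1 - m) * X + C m)).prod`.
   Claim `H = G.map (algebraMap ℚ ℝ)`; then `H.coeff n = ((G.coeff n : ℚ) : ℝ)` (`coeff_map`).
   Proof of the claim by evaluation at all real `x ≠ 1` (infinitely many points:
   `Polynomial.eq_of_infinite_eval_eq`, e.g. the set `Set.Ioi 1` is infinite): with
   `w = x / (x - 1)`, `(1 - m) * x + m = (x - 1) * (w - m)`, so
   `H.eval x = (x - 1) ^ r * ∏ (w - m) = (x - 1) ^ r * fR.eval w` (`L.length = r`), and
   `fR.eval w = ∑ j ∈ range (r + 1), f.coeff j * w ^ j` (`eval_eq_sum_range`, `coeff_map`), so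
   `(x - 1) ^ r * fR.eval w = ∑ j, f.coeff j * x ^ j * (x - 1) ^ (r - j)` (for `j ≤ r`:
   `(x - 1) ^ r * w ^ j = x ^ j * (x - 1) ^ (r - j)`), which is `(G.map _).eval x`.
-/

namespace Vale.Agent.H80.GT

open Polynomial

/-- A list of complex numbers with vanishing imaginary parts is the image of the list of its
real parts. -/
theorem gt10_list_re (Lc : List ℂ) (h : ∀ z ∈ Lc, z.im = 0) :
    (Lc.map Complex.re).map (fun m : ℝ => (m : ℂ)) = Lc := by
  induction Lc with
  | nil => rfl
  | cons z t ih =>
    have hz : z.im = 0 := h z (by simp)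
    have ht : ∀ w ∈ t, w.im = 0 := fun w hw => h w (by simp [hw])
    have hzz : ((z.re : ℝ) : ℂ) = z := Complex.ext (by simp) (by simp [hz])
    simp only [List.map_cons, List.cons.injEq]
    exact ⟨hzz, ih ht⟩

/-- A product over a multiset is the product over its list of elements. -/
theorem gt10_multiset_prod (s : Multiset ℂ) (f : ℂ → ℂ[X]) :
    (s.map f).prod = (s.toList.map f).prod := by
  conv_lhs => rw [← Multiset.coe_toList s]
  rw [Multiset.map_coe, Multiset.prod_coe]

/-- The complex image of a product of real linear factors. -/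
theorem gt10_map_prod (L : List ℝ) :
    ((L.map (fun m => (X : ℝ[X]) - C m)).prod).map Complex.ofRealHom
      = ((L.map (fun m : ℝ => (m : ℂ))).map (fun z => (X : ℂ[X]) - C z)).prod := by
  induction L with
  | nil => simp
  | cons m t ih =>
    simp only [List.map_cons, List.prod_cons, Polynomial.map_mul, ih]
    simp

/-- A monic real polynomial all of whose complex roots are real is a product of real linear
factors, indexed by the real parts of its complex roots. -/
theorem gt10_real_factor (g : ℝ[X]) (hg : g.Monic)
    (hroots : ∀ z : ℂ, (g.map Complex.ofRealHom).eval z = 0 → z.im = 0) :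
    ∃ L : List ℝ, g = (L.map (fun m => (X : ℝ[X]) - C m)).prod ∧
      (∀ m ∈ L, (g.map Complex.ofRealHom).eval (m : ℂ) = 0) := by
  have hmon : (g.map Complex.ofRealHom).Monic := hg.map _
  have hsplit : (g.map Complex.ofRealHom).Splits := IsAlgClosed.splits _
  have hprod := hsplit.eq_prod_roots_of_monic hmon
  have hne : g.map Complex.ofRealHom ≠ 0 := hmon.ne_zero
  have hmem : ∀ z ∈ (g.map Complex.ofRealHom).roots.toList, z.im = 0 := by
    intro z hz
    rw [Multiset.mem_toList, Polynomial.mem_roots hne] at hz
    exact hroots z hz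
  refine ⟨(g.map Complex.ofRealHom).roots.toList.map Complex.re, ?_, ?_⟩
  · apply Polynomial.map_injective Complex.ofRealHom Complex.ofReal_injective
    rw [gt10_map_prod, gt10_list_re _ hmem]
    conv_lhs => rw [hprod]
    exact gt10_multiset_prod _ _
  · intro m hm
    rw [List.mem_map] at hm
    obtain ⟨z, hz, rfl⟩ := hm
    have hz0 : z.im = 0 := hmem z hz
    have hzz : ((z.re : ℝ) : ℂ) = z := Complex.ext (by simp) (by simp [hz0])
    rw [hzz]
    rw [Multiset.mem_toList, Polynomial.mem_roots hne] at hz
    exact hz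

/-- Evaluating the product of the factors `(1 - m) X + m`. -/
theorem gt10_eval_prod (L : List ℝ) (x : ℝ) (hx : x ≠ 1) :
    ((L.map (fun m => C (1 - m) * (X : ℝ[X]) + C m)).prod).eval x
      = (x - 1) ^ L.length * ((L.map (fun m => (X : ℝ[X]) - C m)).prod).eval (x / (x - 1)) := by
  have hx1 : x - 1 ≠ 0 := sub_ne_zero.mpr hx
  induction L with
  | nil => simp
  | cons m t ih =>
    simp only [List.map_cons, List.prod_cons, eval_mul, ih, List.length_cons]
    simp only [eval_add, eval_mul, eval_C, eval_X, eval_sub]
    field_simp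
    ring

/-- The degree of a product of monic linear factors. -/
theorem gt10_natDegree (L : List ℝ) :
    ((L.map (fun m => (X : ℝ[X]) - C m)).prod).natDegree = L.length := by
  have h := natDegree_multiset_prod_X_sub_C_eq_card (L : Multiset ℝ)
  rw [Multiset.map_coe, Multiset.prod_coe, Multiset.coe_card] at h
  exact h

theorem exists_list_of_totally_real (mu : ℝ) (halg : IsAlgebraic ℚ mu)
    (hconj : ∀ z : ℂ, aeval z (minpoly ℚ mu) = 0 → z.im = 0 ∧ 0 < z.re ∧ z.re < 1) :
    ∃ L : List ℝ, L ≠ [] ∧ (∀ m ∈ L, 0 < m ∧ m < 1) ∧ mu ∈ L ∧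
      RatP (L.map (fun m => C (1 - m) * X + C m)).prod := by
  have hint : IsIntegral ℚ mu := halg.isIntegral
  set f : ℚ[X] := minpoly ℚ mu with hf
  have hfmon : f.Monic := minpoly.monic hint
  have hfdeg : 0 < f.natDegree := minpoly.natDegree_pos hint
  set fR : ℝ[X] := f.map (algebraMap ℚ ℝ) with hfR
  have hfRmon : fR.Monic := hfmon.map _
  have hfRC : fR.map Complex.ofRealHom = f.map (algebraMap ℚ ℂ) := by
    rw [hfR, Polynomial.map_map]
    rfl
  have hroot : ∀ z : ℂ, (fR.map Complex.ofRealHom).eval z = 0 → aeval z f = 0 := by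
    intro z hz
    rw [hfRC, eval_map] at hz
    rw [aeval_def]
    exact hz
  obtain ⟨L, hL, hLroot⟩ := gt10_real_factor fR hfRmon (fun z hz => (hconj z (hroot z hz)).1)
  have hdegR : fR.natDegree = f.natDegree := natDegree_map _
  have hlen : L.length = f.natDegree := by
    rw [← hdegR, hL, gt10_natDegree]
  refine ⟨L, ?_, ?_, ?_, ?_⟩
  · intro h
    rw [h] at hlen
    simp at hlen
    omega
  · intro m hm
    have h := hconj (m : ℂ) (hroot _ (hLroot m hm))
    simpa using h.2
  · have h0 : fR.eval mu = 0 := by
      rw [hfR, eval_map, ← aeval_def]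
      exact minpoly.aeval ℚ mu
    rw [hL, eval_list_prod, List.prod_eq_zero_iff, List.map_map, List.mem_map] at h0
    obtain ⟨m, hm, hm0⟩ := h0
    simp only [Function.comp, eval_sub, eval_X, eval_C] at hm0
    have : mu = m := by linarith
    rw [this]
    exact hm
  · set r := f.natDegree with hr
    set G : ℚ[X] := ∑ j ∈ Finset.range (r + 1), C (f.coeff j) * X ^ j * (X - 1) ^ (r - j) with hG
    have hHG : (L.map (fun m => C (1 - m) * (X : ℝ[X]) + C m)).prod = G.map (algebraMap ℚ ℝ) := by
      apply Polynomial.eq_of_infinite_eval_eq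
      apply Set.Infinite.mono (s := Set.Ioi (1 : ℝ)) _ (Set.Ioi_infinite 1)
      intro x hx
      have hx1 : x ≠ 1 := ne_of_gt hx
      have hx0 : x - 1 ≠ 0 := sub_ne_zero.mpr hx1
      show eval x _ = eval x _
      rw [gt10_eval_prod L x hx1, ← hL, hlen, eval_eq_sum_range, hdegR, Finset.mul_sum, hG,
        Polynomial.map_sum, eval_finsetSum]
      apply Finset.sum_congr rfl
      intro j hj
      have hjr : j ≤ r := by
        have := Finset.mem_range.mp hj
        omega
      simp only [Polynomial.map_mul, Polynomial.map_pow, Polynomial.map_sub, map_X, map_C,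
        Polynomial.map_one, eval_mul, eval_pow, eval_sub, eval_X, eval_C, eval_one, hfR,
        coeff_map]
      have hpow : (x - 1) ^ r = (x - 1) ^ j * (x - 1) ^ (r - j) := by
        rw [← pow_add]
        congr 1
        omega
      rw [hpow, div_pow]
      field_simp
    intro n
    refine ⟨G.coeff n, ?_⟩
    rw [hHG, coeff_map]
    rfl

end Vale.Agent.H80.GT
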