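import Mathlib

/-!
# Interlacing pairs of real polynomials (support for P058)

`IP k l P Q`: the real polynomials `P`, `Q` have positive leading coefficients and only real
simple negative roots `-α j` (`j < k`) resp. `-β j` (`j < l`), which interlace:
`0 < α 0 < β 0 < α 1 < β 1 < ...`.  Only the shapes `l = k` and `k = l + 1` are used.
`RatP P`: all coefficients of `P` are rational.

TASK GT-2.  Prove the five lemmas of this file (keep the definitions and statements EXACTLY;
helper lemmas with fresh names starting `gt2_` inside this file).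

* `prod_sign`: induction on `k` (generalise over `i`), or split
  `Finset.range k` as `range i` and the rest (`Finset.prod_range_mul_prod_Ico`): the first
  factor is a product of `i` negative numbers, the second a product of positive numbers.
* `seq_order`: `α j < β j < α (j + 1)` gives that `α` is increasing on indices `< k` and `β` on
  indices `< l` (induction on the difference of the indices); then the two mixed statements.
* `ip_natDegree`, `ip_leadingCoeff_pos`: `∏ j ∈ range k, (X + C (α j))` is monic of degree `k`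
  (`monic_prod_of_monic`, `monic_X_add_C`, `natDegree_prod_of_monic`, `natDegree_X_add_C`);
  `C a * M` with `M` monic and `a ≠ 0` has `natDegree M` and leading coefficient `a`
  (`natDegree_C_mul`, `leadingCoeff_mul`, `leadingCoeff_C`, `Monic.leadingCoeff`).
* `ip_eval_pos`: for `u > 0` every factor `u + α j`, `u + β j` is positive (`β j > α j > 0`, here
  `l ≤ k` is used), `eval_mul`, `eval_prod`, `Finset.prod_pos`.
-/

namespace Vale.Agent.H80.GT

open Polynomial

/-- An interlacing pair: `P = a ∏_{j<k} (X + α j)`, `Q = b ∏_{j<l} (X + β j)` with `a, b > 0` and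
`0 < α 0 < β 0 < α 1 < β 1 < ...`. -/
def IP (k l : ℕ) (P Q : ℝ[X]) : Prop :=
  ∃ (a b : ℝ) (α β : ℕ → ℝ), 0 < a ∧ 0 < b ∧ (∀ j, j < k → 0 < α j) ∧
    (∀ j, j < k → j < l → α j < β j) ∧ (∀ j, j + 1 < k → j < l → β j < α (j + 1)) ∧
    P = C a * ∏ j ∈ Finset.range k, (X + C (α j)) ∧
    Q = C b * ∏ j ∈ Finset.range l, (X + C (β j))

/-- All coefficients are rational. -/
def RatP (P : ℝ[X]) : Prop := ∀ n : ℕ, ∃ q : ℚ, P.coeff n = (q : ℝ)

/-- Strict monotonicity on an initial segment from the successor steps. -/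
theorem gt2_strict (k : ℕ) (a : ℕ → ℝ) (h : ∀ j, j + 1 < k → a j < a (j + 1)) :
    ∀ i j, i < j → j < k → a i < a j := by
  intro i j hij
  induction j, hij using Nat.le_induction with
  | base => intro hk; exact h i hk
  | succ j hj ih => intro hk; exact (ih (by omega)).trans (h j hk)

/-- The monic product of the linear factors. -/
theorem gt2_monic (k : ℕ) (α : ℕ → ℝ) : (∏ j ∈ Finset.range k, (X + C (α j))).Monic :=
  monic_prod_of_monic _ _ (fun j _ => monic_X_add_C _)

theorem gt2_natDegree (k : ℕ) (α : ℕ → ℝ) (a : ℝ) (ha : 0 < a) :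
    (C a * ∏ j ∈ Finset.range k, (X + C (α j))).natDegree = k := by
  rw [natDegree_C_mul ha.ne', natDegree_prod_of_monic _ _ (fun j _ => monic_X_add_C _)]
  simp

theorem gt2_leadingCoeff (k : ℕ) (α : ℕ → ℝ) (a : ℝ) :
    (C a * ∏ j ∈ Finset.range k, (X + C (α j))).leadingCoeff = a := by
  rw [leadingCoeff_mul, leadingCoeff_C, (gt2_monic k α).leadingCoeff, mul_one]

theorem gt2_eval_pos (k : ℕ) (α : ℕ → ℝ) (a : ℝ) (ha : 0 < a) (hα : ∀ j, j < k → 0 < α j)
    (u : ℝ) (hu : 0 < u) : 0 < (C a * ∏ j ∈ Finset.range k, (X + C (α j))).eval u := by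
  rw [eval_mul, eval_C, eval_prod]
  refine mul_pos ha (Finset.prod_pos fun j hj => ?_)
  have := hα j (Finset.mem_range.mp hj)
  simp only [eval_add, eval_X, eval_C]
  linarith

/-- The sign of a product whose first `i` factors are negative and whose other factors are
positive. -/
theorem prod_sign (k : ℕ) (f : ℕ → ℝ) (i : ℕ) (hi : i ≤ k) (hneg : ∀ j, j < i → f j < 0)
    (hpos : ∀ j, i ≤ j → j < k → 0 < f j) :
    0 < (-1 : ℝ) ^ i * ∏ j ∈ Finset.range k, f j := by
  induction k generalizing i with
  | zero =>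
    have h0 : i = 0 := by omega
    subst h0
    simp
  | succ k ih =>
    rw [Finset.prod_range_succ]
    rcases Nat.lt_or_ge k i with hki | hik
    · have hik : i = k + 1 := by omega
      subst hik
      have h1 := ih k le_rfl (fun j hj => hneg j (by omega)) (fun j hj hj' => absurd hj' (by omega))
      have h2 : 0 < -f k := by linarith [hneg k (by omega)]
      have h3 : (-1 : ℝ) ^ (k + 1) * ((∏ j ∈ Finset.range k, f j) * f k)
          = ((-1 : ℝ) ^ k * ∏ j ∈ Finset.range k, f j) * (-f k) := by
        rw [pow_succ]; ring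
      rw [h3]
      exact mul_pos h1 h2
    · have h1 := ih i hik hneg (fun j hj hj' => hpos j hj (by omega))
      have h2 : 0 < f k := hpos k hik (by omega)
      have h3 : (-1 : ℝ) ^ i * ((∏ j ∈ Finset.range k, f j) * f k)
          = ((-1 : ℝ) ^ i * ∏ j ∈ Finset.range k, f j) * f k := by ring
      rw [h3]
      exact mul_pos h1 h2

/-- The order relations of an interlacing pair of sequences. -/
theorem seq_order (k l : ℕ) (hkl : k ≤ l + 1) (hlk : l ≤ k) (α β : ℕ → ℝ)
    (h1 : ∀ j, j < k → j < l → α j < β j) (h2 : ∀ j, j + 1 < k → j < l → β j < α (j + 1)) :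
    (∀ i j, j ≤ i → i < l → α j < β i) ∧ (∀ i j, i < j → j < k → β i < α j) ∧
      (∀ i j, i < j → j < k → α i < α j) ∧ (∀ i j, i < j → j < l → β i < β j) := by
  have hα : ∀ i j, i < j → j < k → α i < α j :=
    gt2_strict k α (fun j hj => (h1 j (by omega) (by omega)).trans (h2 j hj (by omega)))
  have hβ : ∀ i j, i < j → j < l → β i < β j :=
    gt2_strict l β (fun j hj => (h2 j (by omega) (by omega)).trans (h1 (j + 1) (by omega) hj))
  refine ⟨?_, ?_, hα, hβ⟩
  · intro i j hji hil
    rcases Nat.eq_or_lt_of_le hji with h | h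
    · subst h
      exact h1 j (by omega) hil
    · exact (hα j i h (by omega)).trans (h1 i (by omega) hil)
  · intro i j hij hjk
    have h3 := h2 i (by omega) (by omega)
    rcases Nat.eq_or_lt_of_le (Nat.succ_le_of_lt hij) with h | h
    · have h4 : j = i + 1 := by omega
      subst h4
      exact h3
    · exact h3.trans (hα (i + 1) j (by omega) hjk)

theorem ip_natDegree {k l : ℕ} {P Q : ℝ[X]} (h : IP k l P Q) :
    P.natDegree = k ∧ Q.natDegree = l := by
  obtain ⟨a, b, α, β, ha, hb, -, -, -, rfl, rfl⟩ := h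
  exact ⟨gt2_natDegree k α a ha, gt2_natDegree l β b hb⟩

theorem ip_leadingCoeff_pos {k l : ℕ} {P Q : ℝ[X]} (h : IP k l P Q) :
    0 < P.leadingCoeff ∧ 0 < Q.leadingCoeff := by
  obtain ⟨a, b, α, β, ha, hb, -, -, -, rfl, rfl⟩ := h
  rw [gt2_leadingCoeff, gt2_leadingCoeff]
  exact ⟨ha, hb⟩

theorem ip_eval_pos {k l : ℕ} {P Q : ℝ[X]} (h : IP k l P Q) (hlk : l ≤ k) (u : ℝ) (hu : 0 < u) :
    0 < P.eval u ∧ 0 < Q.eval u := by
  obtain ⟨a, b, α, β, ha, hb, hα, h1, -, rfl, rfl⟩ := h
  refine ⟨gt2_eval_pos k α a ha hα u hu, gt2_eval_pos l β b hb (fun j hj => ?_) u hu⟩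
  exact (hα j (by omega)).trans (h1 j (by omega) hj)

end Vale.Agent.H80.GT
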