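import Vale.Agent.H80.GT.Assembly
import Vale.Agent.H80.GT.Conj
import Vale.Agent.H80.GM.Ends3

/-!
# Cyclic quadrilaterals with a totally real diagonal ratio: all angles (support for P058)

`wach_zero_of_totally_real`: a real algebraic `mu` all of whose conjugates are real and lie in
`(0, 1)` has a gadget (a weighted single-kink structure in a `2`-group with kink value `0`).
The proof: `th = mu / (1 - mu)` is a root of `H(-x)` for `H = ∏ ((1 - m) x + m)` over the
conjugates `m` of `mu`; the even and odd parts of `H` form an interlacing pair, whose continued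
fraction has positive rational coefficients and the value `1` at `th`.

`gt_gquad_all`: for such `mu` and a real algebraic `lam` in `(0, 1)` with all real conjugates in
`(0, 1)`, every cyclic quadrilateral `gquad lam mu c`, `|c| < 1`, is Ramsey and is congruent to a
subset of a finite set with a soluble transitive group of isometries.
-/

namespace Vale.Agent.H80.GT

open Vale.Agent.H16.Kite Vale.Agent.H80.GN Vale.Agent.H80.GM
open Polynomial

/-- The gadget for a totally real weight with all conjugates in `(0, 1)`. -/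
theorem wach_zero_of_totally_real (mu : ℝ) (hm0 : 0 < mu) (hm1 : mu < 1)
    (halg : IsAlgebraic ℚ mu)
    (hconj : ∀ z : ℂ, aeval z (minpoly ℚ mu) = 0 → z.im = 0 ∧ 0 < z.re ∧ z.re < 1) :
    ∃ p : ℝ, WAch mu 0 p := by
  obtain ⟨L, hL, h01, hmu, hrat⟩ := exists_list_of_totally_real mu halg hconj
  exact wach_zero_of_scone_one hm0 hm1 (scone_one_of_list L hL h01 mu hmu hrat)

/-- The real conjugates lie in `(0, 1)`. -/
theorem gt_real_conj (mu : ℝ)
    (hconj : ∀ z : ℂ, aeval z (minpoly ℚ mu) = 0 → z.im = 0 ∧ 0 < z.re ∧ z.re < 1) :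
    ∀ l' : ℝ, aeval l' (minpoly ℚ mu) = 0 → 0 < l' ∧ l' < 1 := by
  intro l' hl'
  have h2 := Polynomial.aeval_algebraMap_apply ℂ l' (minpoly ℚ mu)
  rw [hl', map_zero] at h2
  have h3 := hconj ((algebraMap ℝ ℂ) l') h2
  have e : ((algebraMap ℝ ℂ) l').re = l' := by simp
  rw [e] at h3
  exact h3.2

/-- **All angles, totally real `mu`.** Let `mu` in `(0, 1)` be a real algebraic number all of
whose conjugates are real and lie in `(0, 1)`, and `lam` in `(0, 1)` real algebraic with all real
conjugates in `(0, 1)`.  Then every cyclic quadrilateral with diagonal ratios `lam`, `mu` is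
Ramsey and is congruent to a subset of a finite set with a soluble transitive group of
isometries. -/
theorem gt_gquad_all (lam mu c : ℝ) (hl0 : 0 < lam) (hl1 : lam < 1) (hm0 : 0 < mu)
    (hm1 : mu < 1) (hc : |c| < 1) (halg : IsAlgebraic ℚ lam)
    (hreal : ∀ l' : ℝ, aeval l' (minpoly ℚ lam) = 0 → 0 < l' ∧ l' < 1)
    (hmalg : IsAlgebraic ℚ mu)
    (hconj : ∀ z : ℂ, aeval z (minpoly ℚ mu) = 0 → z.im = 0 ∧ 0 < z.re ∧ z.re < 1) :
    IsRamsey (gquad lam mu c) ∧ EmbedsInSolubleTransitive (gquad lam mu c) ∧
      EmbedsInTransitive (gquad lam mu c) :=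
  gquad_all_of_ps_true lam mu hl0 hl1 hm0 hm1
    (gm_ps_ends lam mu hl0 hl1 hm0 hm1 halg hreal hmalg (gt_real_conj mu hconj)
      (wach_zero_of_totally_real mu hm0 hm1 hmalg hconj)) c hc

end Vale.Agent.H80.GT
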